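import Vale.Agent.P011LB.Psi
import Vale.Agent.P011LT.T1

/-!
P011 (helper26): anisotropy.
-/

set_option linter.all false

open Matrix TensorProduct

namespace Vale.Agent.P011LB

open Vale.Agent.P011L Vale.Agent.P011LT

theorem exists_idem {A C : Type} [Ring A] [StarRing A] [IsSemisimpleRing A] [Field C] [StarRing C]
    [Algebra C A] [StarModule C A] {z : C} (hz : star z ≠ z) {x : A} (h : star x * x = 0)
    (h0 : x ≠ 0) : ∃ e : A, e ≠ 0 ∧ e * e = e ∧ e * star e = 0 ∧ star e * e = 0 := by
  obtain ⟨u, u1, u2⟩ := IsSemisimpleRing.ideal_eq_span_idempotent (Ideal.span {x})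
  obtain ⟨y, hy⟩ := Ideal.mem_span_singleton'.1 (u2.ge (Ideal.mem_span_singleton_self u))
  obtain ⟨w, hw⟩ := Ideal.mem_span_singleton'.1 (u2.le (Ideal.mem_span_singleton_self x))
  have h1 : x * y * x = x := by rw [mul_assoc, hy, ← hw, mul_assoc, u1.eq]
  obtain ⟨f, hf⟩ : ∃ f, f = x * y := ⟨_, rfl⟩
  have f1 : f * f = f := by rw [hf, ← mul_assoc, h1]
  have f2 : star f * f = 0 := by
    rw [hf, star_mul, mul_assoc, ← mul_assoc (star x), h, zero_mul, mul_zero]
  have f3 : star f * star f = star f := by rw [← star_mul, f1]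
  have f4 : ∀ v, f * (f * v) = f * v := fun v => by rw [← mul_assoc, f1]
  have f5 : ∀ v, star f * (f * v) = 0 := fun v => by rw [← mul_assoc, f2, zero_mul]
  obtain ⟨a, ha⟩ : ∃ a : C, a + star a = 1 := ⟨z / (z - star z), by
    have := sub_ne_zero.2 hz.symm
    rw [star_div₀, star_sub, star_star, ← neg_div_neg_eq (star z), neg_sub, ← add_div,
      ← sub_eq_add_neg, div_self this]⟩
  refine ⟨f - a • (f * star f), fun e => h0 ?_, ?_, ?_, ?_⟩
  · have := congrArg (· * f * x) e
    simpa [sub_mul, mul_assoc, f2, f4, f5, hf ▸ h1] using this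
  · simp [sub_mul, mul_sub, mul_assoc, f1, f2, f4, f5]
  · simp only [star_sub, star_smul, star_mul, star_star, sub_mul, mul_sub, smul_mul_assoc,
      mul_smul_comm, mul_assoc, f3, f4, f5, mul_zero, smul_zero, sub_zero]
    rw [sub_sub, ← add_smul, ha, one_smul, sub_self]
  · simp [sub_mul, mul_sub, mul_assoc, f1, f2, f4, f5]

variable {k K m A : Type} [Field k] [Field K] [Algebra k K] [Fintype m] [DecidableEq m]
  {G : Subgroup (GL m K)} {n : ℕ} {φ : G ≃* SA K n} [Ring A] [StarRing A] [Algebra k A]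
  (M : Md k φ A)

namespace Md

theorem j_ps (x : Matrix m m k) :
    M.j (M.ps (AlgHom.id k A) x) = M.ps M.j (x.map (Algebra.ofId k K)) :=
  M.ps_nat _ M.j.toRingHom.toAddMonoidHom (fun c a =>
    (map_smul M.j c a).trans (algebraMap_smul K c _).symm) x

/-- the rational points as points over `K` -/
def up (e : Pts k G K = G) (g : Pts k G k) : G :=
  ⟨_, (mem_Pts_sub e (Algebra.ofId k K)).1 g.2⟩

theorem j_up (e : Pts k G K = G) (g : Pts k G k) :
    M.j (M.ps (AlgHom.id k A) g.1.1) = P011LB.th φ (up e g) := (M.j_ps _).trans (M.ps_j (up e g))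

theorem psk_inj (e : Pts k G K = G) {g h : Pts k G k}
    (a : M.ps (AlgHom.id k A) g.1.1 = M.ps (AlgHom.id k A) h.1.1) : g = h := by
  have := th_inj φ (congrArg Prod.fst ((M.j_up e g).symm.trans ((congrArg _ a).trans (M.j_up e h))))
  exact Subtype.ext (Units.ext (Matrix.map_injective (algebraMap k K).injective
    (congrArg (·.1.1) this)))

variable [IsGalois k K] (e : Pts k G K = G)

include e in
theorem surj {u : A} (h : u * star u = 1) (hd : (M.j u).1.det = 1) :
    ∃ g : Pts k G k, M.ps (AlgHom.id k A) g.1.1 = u := by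
  have h1 : (M.j u).1 * (M.j u).2ᵀ = 1 := by
    have := congrArg (fun x => (M.j x).1) h
    simpa [M.st, P011LB.st] using this
  let g := φ.symm ⟨⟨_, _, h1, mul_eq_one_comm.1 h1⟩, mem_SA.2 hd⟩
  have h2 : P011LB.th φ g = M.j u := by
    simp only [P011LB.th, g, MonoidHom.coe_mk, OneHom.coe_mk, MulEquiv.apply_symm_apply]
    rfl
  obtain ⟨g', hg⟩ := exists_down (M.rat g u h2)
  refine ⟨⟨g', (mem_Pts_sub e (Algebra.ofId k K)).2 (hg ▸ g.2 :)⟩, M.inj ?_⟩
  rw [j_up M e, ← h2]
  exact congrArg _ (Subtype.ext hg)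

variable [NeZero n]

include M e in
theorem aniso [Infinite k] (hp : Pol φ.symm) (an : Ani (Pts k G k)) (x : A)
    (hx : star x * x = 0) : x = 0 := by
  by_contra h0
  haveI := M.simple
  obtain ⟨C, _, _, _, _, _, _, _⟩ := exists_ctr k A
  haveI : Module.Finite C A := Module.finite_of_finrank_pos (M.rank C ▸ pow_pos (NeZero.pos n) 2)
  haveI := IsArtinianRing.of_finite C A
  obtain ⟨z, hz⟩ := M.star_ne C
  obtain ⟨u, u0, u1, u2, u3⟩ := exists_idem hz hx h0
  have u4 : star u * star u = star u := by rw [← star_mul, u1]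
  let l : kˣ →* A :=
    { toFun := fun t => pw 1 t • u + pw (-1) t • star u + (1 - u - star u)
      map_one' := by simp [pw]
      map_mul' := fun s t => by
        simp only [pw_mul, mul_add, add_mul, mul_sub, sub_mul, smul_mul_assoc, mul_smul_comm, u1, u2,
          u3, u4, mul_one, one_mul, smul_smul, smul_zero, smul_sub, smul_add, mul_comm (pw _ t)]
        abel }
  have l1 : ∀ t, star (l t) = l t⁻¹ := fun t => by
    show star (pw 1 t • u + pw (-1) t • star u + (1 - u - star u)) =
      pw 1 t⁻¹ • u + pw (-1) t⁻¹ • star u + (1 - u - star u)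
    simp only [star_add, star_sub, M.stsm, star_star, star_one, pw, _root_.inv_zpow', neg_neg]
    abel
  have l2 : (l : kˣ → A) ∈ PV (cA k) A :=
    pv_add (pv_add (pv_gen (pw_mem 1) _) (pv_gen (pw_mem (-1)) _)) (pv_const _)
  let f : A →ₐ[k] Mn n K := (AlgHom.fst k _ _).comp M.j
  obtain ⟨r, hr⟩ := scal (L := k) (M := K) (fun _ a => a.isUnit)
    (detMonoidHom.comp (f.toMonoidHom.comp l)) (pv_det (pv_map f.toLinearMap l2))
  obtain ⟨σ, s, hs⟩ := M.out
  have d1 : ∀ t, (M.j (l (t * t))).1.det = 1 := fun t => by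
    have h1 := congrArg det (hs (l t))
    rw [det_mul, det_mul, mul_comm, mul_right_inj' s.det_ne_zero, ← det_transpose (Matrix.map _ _),
      ← transpose_map, show (M.j (l t)).2ᵀ = (M.j (l t⁻¹)).1 by rw [← l1, M.st]; rfl] at h1
    have h2 := (σ.toAlgHom.map_det (M.j (l t⁻¹)).1).symm.trans
      ((congrArg σ (hr t⁻¹)).trans ((σ.commutes _).trans (hr t⁻¹).symm))
    rw [map_mul, map_mul, Prod.fst_mul, det_mul]
    refine (congrArg ((M.j (l t)).1.det * ·) (h1.trans h2)).trans ?_
    show (f (l t)).det * (f (l t⁻¹)).det = 1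
    rw [← det_mul, ← map_mul, ← map_mul, mul_inv_cancel, map_one, map_one, det_one]
  choose g hg using fun t => M.surj e (u := l (t * t))
    (by rw [l1, ← map_mul, mul_inv_cancel, map_one]) (d1 t)
  have hz : ∀ g : Pts k G k, g.1.1 ∈ Z k G k := fun g p hp =>
    (algebraMap k K).injective ((ev_map (Algebra.ofId k K) _ p).symm.trans
      ((hp _ (up e g).2).trans (map_zero _).symm))
  let μ : kˣ →* Matrix m m k :=
    { toFun := fun t => (g t).1.1
      map_one' := congrArg (·.1.1) (M.psk_inj e (h := 1) ((hg 1).trans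
        (by rw [one_mul, map_one]; exact (M.ps_one e _).symm)))
      map_mul' := fun s t => congrArg (·.1.1) (M.psk_inj e (h := g s * g t) ((hg _).trans (by
        rw [mul_mul_mul_comm, map_mul, ← hg, ← hg]
        exact (M.ps_mul e _ (hz _) (hz _)).symm))) }
  obtain ⟨π, hπ⟩ := Module.Projective.exists_dual_eq_one k (one_ne_zero : (1 : K) ≠ 0)
  obtain ⟨c, y, hc⟩ := diag μ (pv_mat fun a b => by
    obtain ⟨q, hq⟩ := hp a b
    convert pv_map π (pv_eval (RingHom.id K) (u := fun (e : Fin n × Fin n) t => f (l t * l t) e.1 e.2)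
      (fun e => pv_entry (pv_map f.toLinearMap (pv_mul l2 l2)) _ _) q) using 2 with t
    have h1 := hq (φ (up e (g t)))
    rw [MulEquiv.symm_apply_apply] at h1
    have h2 : f (l t * l t) = (φ (up e (g t))).1.1 := by
      rw [← map_mul l, ← hg]
      exact congrArg Prod.fst (M.j_up e _)
    rw [h2]
    refine Eq.trans ?_ (congrArg π h1)
    show _ = π (algebraMap k K (μ t a b))
    rw [Algebra.algebraMap_eq_smul_one, map_smul, hπ, smul_eq_mul, mul_one])
  obtain rfl := an c y fun t => ⟨g t, (g t).2, hc t⟩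
  refine two_ne_zero (P011LA.zpow_inj (K := k) (m := 2) fun t => Units.ext ?_)
  have h1 : μ t = 1 := c.isUnit.mul_right_cancel ((hc t).trans (by simp [pw]))
  have h2 := congrArg (· * u) ((hg t).symm.trans ((congrArg _ h1).trans (M.ps_one e _)))
  have h3 : pw 1 (t * t) • u = (1 : k) • u := by
    simpa [l, add_mul, sub_mul, u1, u3] using h2
  rw [zpow_two]
  exact (congrArg Units.val (zpow_one _)).symm.trans (smul_left_injective k u0 h3)

variable {C : Type} [Field C] [Algebra k C] [StarRing C] [Algebra C A] [IsScalarTower k C A]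
  [StarModule C A] [Algebra.IsCentral C A]

/-- the splitting -/
noncomputable def sp [Algebra C K] (h : ∀ c, algebraMap C K c = M.kap C c) : A →ₐ[C] Mn n K :=
  { ((AlgHom.fst k _ _).comp M.j).toRingHom with
    commutes' := fun c => (M.kap_eq C c).trans (by rw [← h, ← IsScalarTower.algebraMap_apply]) }

include M e in
theorem ani (hn : 3 ≤ n) (hp : Pol φ.symm) {L : Type} [Field L] [Infinite L] [Algebra k L]
    [Algebra C L] [IsScalarTower k C L] (hD : ∀ x : L ⊗[C] A, x ≠ 0 → IsUnit x) :
    Ani (Pts k G L) := by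
  intro g y hy
  haveI := M.simple
  letI := (M.kap C).toRingHom.toAlgebra
  haveI : IsScalarTower k C K := .of_algebraMap_eq fun c => ((M.kap C).commutes c).symm
  haveI : Algebra.IsAlgebraic C K := .tower_top (K := k) C
  let Ω := AlgebraicClosure L
  let ι : K →ₐ[C] Ω := IsAlgClosed.lift
  let r := IsScalarTower.toAlgHom k L Ω
  let F : L ⊗[C] A →ₐ[L] Mn n Ω := lf (ι.mapMatrix.comp (M.sp fun _ => rfl))
  let w : A →ₐ[k] L ⊗[C] A := Algebra.TensorProduct.includeRight.restrictScalars k
  have hF := M.ps_nat r F.toRingHom.toAddMonoidHom (w := w) (w' := M.rp (ι.restrictScalars k))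
    fun c a => (map_smul F c _).trans ((congrArg _ ((lf_tmul _ _ _).trans (one_smul _ _))).trans
      (algebraMap_smul Ω c _).symm)
  let h : Lˣ → Matrix m m L := fun t => g.1 * (diagonal fun i => pw (y i) t) * (g⁻¹).1
  have hd : ∀ g ∈ G, g.1.det = 1 := fun g a => by
    simpa using perf hn (detMonoidHom.comp ((Units.coeHom _).comp
      (G.subtype.comp φ.symm.toMonoidHom))) (φ ⟨g, a⟩)
  have h1 : ∀ t, h t ∈ Z k G L := fun t => by
    obtain ⟨u, a, b⟩ := hy t
    have : h t = u.1 := (congrArg (· * (g⁻¹).1) b.symm).trans (Units.mul_inv_cancel_right _ g)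
    exact this ▸ Z_pts e hd a
  let μ : Lˣ →* L ⊗[C] A :=
    { toFun := fun t => M.ps w (h t)
      map_one' := by simpa [h, pw] using M.ps_one e w
      map_mul' := fun s t => by
        rw [← M.ps_mul e w (h1 s) (h1 t)]
        simp [h, pw_mul, Matrix.mul_assoc, ← diagonal_mul_diagonal] }
  have h2 : h ∈ PV (cA L) (Matrix m m L) :=
    pv_mmul (pv_mmul (pv_const g.1) (pv_mat (F := fun t => diagonal fun i => pw (y i) t)
      fun a b => by
        simp only [diagonal_apply]
        split_ifs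
        exacts [pv_self (pw_mem _), pv_const _])) (pv_const (g⁻¹).1)
  haveI : Nontrivial (L ⊗[C] A) := F.toRingHom.domain_nontrivial
  obtain ⟨j, hj⟩ := scal hD μ (M.pv_ps h2 w)
  have h3 : ∀ t, M.ps (M.rp (ι.restrictScalars k)) ((h t).map r) =
      algebraMap Ω (Mn n Ω) (r (pw j t)) := fun t => (hF _).symm.trans ((congrArg F (hj t)).trans
    ((F.commutes _).trans (IsScalarTower.algebraMap_apply L Ω _ _)))
  funext i
  refine (mul_eq_zero.1 (P011LA.zpow_inj (K := L) (m := n * y i) fun t => Units.ext ?_)).resolve_left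
    (Nat.cast_ne_zero.2 (NeZero.ne n))
  have h4 := M.ps_det e hn (M.rp (ι.restrictScalars k)) (Z_map r (h1 t))
  rw [h3, Algebra.algebraMap_eq_smul_one, det_smul, det_one, mul_one, Fintype.card_fin] at h4
  have h5 := M.ps_inj e hp _ (Z_map r (h1 (t ^ n))) (by
    rw [h3, show pw j (t ^ n) = pw j t ^ n by simp [pw, ← zpow_natCast, ← _root_.zpow_mul, mul_comm],
      map_pow, h4, map_one])
  have h6 : h (t ^ n) = 1 := Matrix.map_injective r.injective
    (h5.trans (Matrix.map_one _ (map_zero r) (map_one r)).symm)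
  have h7 : (diagonal fun i => pw (y i) (t ^ n)) = 1 := by
    simpa [h, ← Matrix.mul_assoc] using congrArg (fun x => (g⁻¹).1 * (x * g.1)) h6
  simpa [pw, _root_.zpow_mul] using congrFun₂ h7 i i

end Md

end Vale.Agent.P011LB
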