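import Vale.Agent.P011LB.Md
import Vale.Agent.P011NC.Spec

/-!
P011 (helper26): the algebra of the form is central simple with an involution of the second kind.
-/

set_option linter.all false

open Matrix TensorProduct

namespace Vale.Agent.P011LB

open Vale.Agent.P011L Vale.Agent.P011LT

theorem exists_ctr (k A : Type) [Field k] [Ring A] [StarRing A] [Algebra k A] [IsSimpleRing A] :
    ∃ (C : Type) (_ : Field C) (_ : Algebra k C) (_ : StarRing C) (_ : Algebra C A),
      IsScalarTower k C A ∧ StarModule C A ∧ Algebra.IsCentral C A := by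
  letI : StarRing (Subring.center A) :=
    { star := fun c => ⟨star c.1, Set.star_mem_center c.2⟩
      star_involutive := fun c => Subtype.ext (star_star c.1)
      star_mul := fun c d => Subtype.ext (star_mul c.1 d.1)
      star_add := fun c d => Subtype.ext (star_add c.1 d.1) }
  letI : Algebra k (Subring.center A) := ((algebraMap k A).codRestrict (Subring.center A) fun c =>
    Subring.mem_center_iff.2 fun x => (Algebra.commutes c x).symm).toAlgebra
  have h1 : IsScalarTower k (Subring.center A) A := .of_algebraMap_eq fun _ => rfl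
  have h2 : StarModule (Subring.center A) A :=
    ⟨fun c x => (star_mul c.1 x).trans (Subring.mem_center_iff.1 (star c).2 _)⟩
  have h3 : Algebra.IsCentral (Subring.center A) A := ⟨fun x hx => ⟨⟨x, hx⟩, rfl⟩⟩
  exact ⟨Subring.center A, (IsSimpleRing.isField_center A).toField, _, _, _, h1, h2, h3⟩

theorem finrank_two {k K : Type} [Field k] [Field K] [Algebra k K] [StarRing K]
    (h : ∀ x : K, star x = x ↔ x ∈ Set.range (algebraMap k K)) {z : K} (hz : star z ≠ z) :
    Module.finrank k K = 2 := by
  have h0 : z - star z ≠ 0 := sub_ne_zero.2 hz.symm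
  have h1 : LinearIndependent k ![1, z] := (LinearIndependent.pair_iff' one_ne_zero).2 fun a e =>
    hz ((h z).2 ⟨a, (Algebra.algebraMap_eq_smul_one a).trans e⟩)
  refine (Module.finrank_eq_card_basis (Module.Basis.mk h1 fun x _ => ?_)).trans (by simp)
  obtain ⟨b, hb⟩ := (h ((x - star x) / (z - star z))).1 (by
    rw [star_div₀, star_sub, star_sub, star_star, star_star, ← neg_div_neg_eq, neg_sub, neg_sub])
  obtain ⟨a, ha⟩ := (h (x - algebraMap k K b * z)).1 (by
    rw [star_sub, star_mul', (h _).2 ⟨b, rfl⟩, hb]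
    field_simp
    ring)
  refine (Submodule.mem_span_range_iff_exists_fun k).2 ⟨![a, b], ?_⟩
  simp [Algebra.smul_def, ha]

variable {k K m A : Type} [Field k] [Field K] [Algebra k K] [Fintype m] [DecidableEq m]
  {G : Subgroup (GL m K)} {n : ℕ} {φ : G ≃* SA K n} [Ring A] [StarRing A] [Algebra k A]
  (M : Md k φ A)

namespace Md

theorem inj : Function.Injective M.j := fun a b e =>
  Algebra.TensorProduct.includeRight_injective (algebraMap k K).injective (M.bij.1 (by
    simpa only [Algebra.TensorProduct.includeRight_apply, lf_tmul, one_smul] using e))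

theorem snd0 {a : A} (h : (M.j a).2 = 0) : (M.j a).1 = 0 := by
  obtain ⟨σ, s, e⟩ := M.out
  exact s.isUnit.mul_right_cancel (by rw [e, h]; simp)

theorem eq0 {a : A} (h : (M.j a).1 = 0 ∨ (M.j a).2 = 0) : a = 0 := by
  refine M.inj ((map_zero M.j).symm ▸ h.elim (fun h => Prod.ext h ?_) fun h => Prod.ext (M.snd0 h) h)
  have := M.snd0 (a := star a) (by rw [M.st]; exact congrArg transpose h)
  rw [M.st] at this
  exact transpose_injective this

include M in
theorem stsm (c : k) (a : A) : star (c • a) = c • star a :=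
  M.inj (by rw [map_smul, M.st, M.st, map_smul]; rfl)

theorem ind {P : BB n K → Prop} (h0 : P 0) (h1 : ∀ x y, P x → P y → P (x + y))
    (h2 : ∀ (c : K) a, P (c • M.j a)) (y : BB n K) : P y := by
  obtain ⟨T, rfl⟩ := M.bij.2 y
  induction T with
  | zero => rwa [map_zero]
  | tmul c a => exact lf_tmul M.j c a ▸ h2 c a
  | add a b c d => exact map_add (lf M.j) a b ▸ h1 _ _ c d

/-- the retractions -/
noncomputable def rt (π : K →ₗ[k] k) : BB n K →ₗ[k] A :=
  (TensorProduct.lid k A).toLinearMap ∘ₗ π.rTensor A ∘ₗ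
    (AlgEquiv.ofBijective _ M.bij).symm.toLinearMap.restrictScalars k

theorem rt_lf (π : K →ₗ[k] k) (T : K ⊗[k] A) :
    M.rt π (lf M.j T) = TensorProduct.lid k A (π.rTensor A T) :=
  congrArg (fun T => TensorProduct.lid k A (π.rTensor A T))
    ((AlgEquiv.ofBijective _ M.bij).symm_apply_apply T)

theorem rt_smul (π : K →ₗ[k] k) (c : K) (a : A) : M.rt π (c • M.j a) = π c • a := by
  rw [← lf_tmul, rt_lf]
  rfl

theorem rt_zero {y : BB n K} (h : ∀ π, M.rt π y = 0) : y = 0 := by
  classical
  obtain ⟨T, rfl⟩ := M.bij.2 y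
  have : T = 0 := (equivFinsuppOfBasisLeft (Module.Basis.ofVectorSpace k K)).injective
    (Finsupp.ext fun i => by rw [equivFinsuppOfBasisLeft_apply, ← M.rt_lf, h, map_zero]; rfl)
  rw [this, map_zero]

theorem rt_left (π : K →ₗ[k] k) (a : A) (y : BB n K) : M.rt π (M.j a * y) = a * M.rt π y :=
  M.ind (P := fun y => M.rt π (M.j a * y) = a * M.rt π y) (by simp)
    (fun x y b c => by simp only [mul_add, map_add, b, c])
    (fun c b => by rw [mul_smul_comm, ← map_mul, rt_smul, rt_smul, mul_smul_comm]) y

theorem rt_right (π : K →ₗ[k] k) (a : A) (y : BB n K) : M.rt π (y * M.j a) = M.rt π y * a :=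
  M.ind (P := fun y => M.rt π (y * M.j a) = M.rt π y * a) (by simp)
    (fun x y b c => by simp only [add_mul, map_add, b, c])
    (fun c b => by rw [smul_mul_assoc, ← map_mul, rt_smul, rt_smul, smul_mul_assoc]) y

theorem rt_st (π : K →ₗ[k] k) (y : BB n K) : M.rt π (P011LB.st y) = star (M.rt π y) :=
  M.ind (P := fun y => M.rt π (P011LB.st y) = star (M.rt π y))
    ((M.rt π).map_zero.trans (by rw [map_zero, star_zero]))
    (fun x y b c => by rw [map_add, star_add, ← b, ← c, ← map_add]; rfl)
    (fun c b => by rw [rt_smul, M.stsm, ← M.rt_smul π, M.st]; rfl) y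

theorem rt_sc (π : K →ₗ[k] k) (c : K) (y : BB n K) :
    M.rt π (c • y) = M.rt (π ∘ₗ LinearMap.mulLeft k c) y :=
  M.ind (P := fun y => M.rt π (c • y) = M.rt (π ∘ₗ LinearMap.mulLeft k c) y) (by simp)
    (fun x y b c => by simp only [smul_add, map_add, b, c])
    (fun d b => by rw [smul_smul, rt_smul, rt_smul]; rfl) y

theorem rt_one : ∃ π, ∀ a, M.rt π (M.j a) = a := by
  obtain ⟨π, h⟩ := Module.Projective.exists_dual_eq_one k (one_ne_zero : (1 : K) ≠ 0)
  exact ⟨π, fun a => by rw [← one_smul K (M.j a), rt_smul, h, one_smul]⟩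

variable [NeZero n]
include M

theorem simple : IsSimpleRing A := by
  haveI : Nontrivial A := M.j.toRingHom.domain_nontrivial
  refine .of_eq_bot_or_eq_top fun I => or_iff_not_imp_left.2 fun h => ?_
  obtain ⟨a, ha, h0⟩ := SetLike.exists_of_lt (bot_lt_iff_ne_bot.2 h)
  let P : BB n K → Prop := fun y => ∀ π, M.rt π y ∈ I
  have p0 : P 0 := fun π => (M.rt π).map_zero ▸ I.zero_mem
  have pa : ∀ {x y}, P x → P y → P (x + y) := fun a b π =>
    (M.rt π).map_add _ _ ▸ I.add_mem (a π) (b π)
  have pn : ∀ {x}, P x → P (-x) := fun a π => map_neg (M.rt π) _ ▸ I.neg_mem (a π)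
  have pl : ∀ x {y}, P y → P (x * y) := fun x y b => M.ind (P := fun x => P (x * y))
    (by rwa [zero_mul]) (fun _ _ c d => by rw [add_mul]; exact pa c d) (fun c d π => by
      rw [smul_mul_assoc, rt_sc, rt_left]; exact I.mul_mem_left _ _ (b _)) x
  have pr : ∀ {x} y, P x → P (x * y) := fun {x} y b => M.ind (P := fun y => P (x * y))
    (by rwa [mul_zero]) (fun _ _ c d => by rw [mul_add]; exact pa c d) (fun c d π => by
      rw [mul_smul_comm, rt_sc, rt_right]; exact I.mul_mem_right _ _ (b _)) y
  have pj : P (M.j a) := fun π => by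
    rw [← one_smul K (M.j a), rt_smul, Algebra.smul_def]
    exact I.mul_mem_left _ _ ha
  have k1 : ∀ l : Mn n K →ₙₐ[K] BB n K, ∀ x ≠ 0, P (l x) → P (l 1) := fun l x a b =>
    (TwoSidedIdeal.mem_mk' _ _ _ _ _ _ _).1 (IsSimpleRing.one_mem_of_ne_zero_mem
      (TwoSidedIdeal.mk' {x | P (l x)} (by simpa using p0) (fun a b => by simpa using pa a b)
        (fun a => by simpa using pn a) (fun a => by simpa using pl _ a)
        fun a => by simpa using pr _ a) a ((TwoSidedIdeal.mem_mk' _ _ _ _ _ _ _).2 b))
  have k2 := pa (k1 (.inl _ _ _) _ (fun e => h0 (M.eq0 (.inl e)))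
    (by simpa [Prod.mul_def] using pr ((1, 0) : BB n K) pj)) (k1 (.inr _ _ _) _ (fun e => h0 (M.eq0 (.inr e)))
    (by simpa [Prod.mul_def] using pr ((0, 1) : BB n K) pj))
  obtain ⟨π, hπ⟩ := M.rt_one
  rw [← TwoSidedIdeal.one_mem_iff, ← hπ 1, map_one]
  simpa [Prod.one_eq_mk] using k2 π

variable {C : Type} [Field C] [Algebra k C] [StarRing C] [Algebra C A] [IsScalarTower k C A]
  [StarModule C A] [Algebra.IsCentral C A]

theorem cext {c d : C} (h : algebraMap C A c = algebraMap C A d) : c = d :=
  haveI := M.simple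
  (algebraMap C A).injective h

omit M [NeZero n] in
theorem cstar (c : C) : algebraMap C A (star c) = star (algebraMap C A c) := by
  rw [Algebra.algebraMap_eq_smul_one, Algebra.algebraMap_eq_smul_one, star_smul, star_one]

theorem cen (c : C) : ∃ u v : K,
    M.j (algebraMap C A c) = (algebraMap K (Mn n K) u, algebraMap K (Mn n K) v) := by
  have h : ∀ y, y * M.j (algebraMap C A c) = M.j (algebraMap C A c) * y := M.ind (by simp)
    (fun x y a b => by rw [add_mul, mul_add, a, b]) fun d a => by
      rw [smul_mul_assoc, mul_smul_comm, ← map_mul, ← map_mul, Algebra.commutes]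
  obtain ⟨u, hu⟩ := (Algebra.IsCentral.mem_center_iff K).1
    (Subalgebra.mem_center_iff.2 fun x => congrArg Prod.fst (h (x, 0)))
  obtain ⟨v, hv⟩ := (Algebra.IsCentral.mem_center_iff K).1
    (Subalgebra.mem_center_iff.2 fun x => congrArg Prod.snd (h (0, x)))
  exact ⟨u, v, Prod.ext hu hv⟩

theorem fixed (c : C) : star c = c ↔ c ∈ Set.range (algebraMap k C) := by
  refine ⟨fun h => ?_, fun ⟨r, h⟩ => h ▸ M.cext ?_⟩
  · obtain ⟨u, v, e⟩ := M.cen c
    obtain ⟨π, hπ⟩ := M.rt_one
    have h1 := M.st (algebraMap C A c)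
    rw [← cstar, h, e] at h1
    have h2 : M.j (algebraMap C A c) = u • M.j 1 := by
      rw [e, map_one, show algebraMap K (Mn n K) v = (algebraMap K (Mn n K) u)ᵀ from
        congrArg Prod.snd h1, Algebra.algebraMap_eq_smul_one, transpose_smul, transpose_one]
      rfl
    exact ⟨π u, M.cext (by rw [← hπ (algebraMap C A c), h2, rt_smul,
      ← Algebra.algebraMap_eq_smul_one, ← IsScalarTower.algebraMap_apply])⟩
  · rw [cstar, ← IsScalarTower.algebraMap_apply, Algebra.algebraMap_eq_smul_one, M.stsm, star_one]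

variable (C)

theorem star_ne : ∃ c : C, star c ≠ c := by
  by_contra! h
  have := M.rt_zero (y := P011LB.st (1, 0) - (1, 0)) fun π => by
    obtain ⟨c, hc⟩ := (Algebra.IsCentral.mem_center_iff C).1
      (Subalgebra.mem_center_iff.2 fun a => by
        rw [← M.rt_left π a (1, 0), ← rt_right]
        exact congrArg _ (Prod.ext (by simp) (by simp)))
    rw [map_sub, rt_st, hc, ← cstar, h, sub_self]
  simpa [P011LB.st] using congrArg Prod.fst this

theorem rank : Module.finrank C A = n ^ 2 := by
  obtain ⟨z, hz⟩ := M.star_ne C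
  have h1 := Module.finrank_mul_finrank k C A
  rw [finrank_two M.fixed hz, ← Module.finrank_baseChange (R := K) (S := k),
    (AlgEquiv.ofBijective _ M.bij).toLinearEquiv.finrank_eq, Module.finrank_prod,
    Module.finrank_matrix, Fintype.card_fin, Module.finrank_self] at h1
  nlinarith

/-- the embedding of the centre -/
noncomputable def kap : C →ₐ[k] K where
  toFun c := (M.j (algebraMap C A c)).1 0 0
  map_one' := by simp
  map_mul' c d := by
    obtain ⟨u, v, e⟩ := M.cen c
    rw [map_mul, map_mul, e, Prod.fst_mul, ← Algebra.smul_def]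
    simp [algebraMap_matrix_apply]
  map_zero' := by simp
  map_add' c d := by simp
  commutes' r := by
    rw [← IsScalarTower.algebraMap_apply, AlgHom.commutes]
    simp [algebraMap_matrix_apply]

theorem kap_eq (c : C) : (M.j (algebraMap C A c)).1 = algebraMap K (Mn n K) (M.kap C c) := by
  obtain ⟨u, v, e⟩ := M.cen c
  show _ = algebraMap K (Mn n K) ((M.j (algebraMap C A c)).1 0 0)
  rw [e]
  simp [algebraMap_matrix_apply]

end Md

end Vale.Agent.P011LB
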