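import Vale.Agent.P011LB.PV
import Vale.Agent.P011LT.Basic
import Vale.Agent.P011.H748.Mautner

/-!
P011 (helper26): extension of polynomial identities from `G` to the points over any ring.
-/

set_option linter.all false

open Matrix TensorProduct

namespace Vale.Agent.P011LB

open Vale.Agent.P011L Vale.Agent.P011LT

/-- the special linear group is perfect -/
theorem perf {K S : Type} [Field K] [CommMonoid S] {n : ℕ} (hn : 3 ≤ n) (χ : SA K n →* S)
    (g : SA K n) : χ g = 1 := by
  let τ : SpecialLinearGroup (Fin n) K →* SA K n :=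
    SpecialLinearGroup.toGL.codRestrict _ fun x => mem_SA.2 x.2
  let ψ := (χ.comp τ).toHomUnits
  haveI : Nontrivial (Fin n) := Fin.nontrivial_iff_two_le.2 (by omega)
  have h1 : ∀ (i j : Fin n) (h : i ≠ j) c, ψ (SpecialLinearGroup.transvection h c) = 1 := by
    intro i j h c
    obtain ⟨l, a, b⟩ := Fin.exists_ne_and_ne_of_two_lt i j (by omega)
    have e : SpecialLinearGroup.transvection a.symm c * SpecialLinearGroup.transvection b 1 =
        SpecialLinearGroup.transvection h c * SpecialLinearGroup.transvection b 1 *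
          SpecialLinearGroup.transvection a.symm c := P011.H748.sl_ext (by
      simp only [map_mul, SpecialLinearGroup.coeMonoidHom_apply, SpecialLinearGroup.transvection_coe, mul_add, add_mul,
        mul_one, one_mul, single_mul_single_same, single_mul_single_of_ne _ _ _ _ h.symm,
        single_mul_single_of_ne _ _ _ _ b.symm, Matrix.zero_mul, add_zero]
      abel)
    have := congrArg ψ e
    rw [map_mul, map_mul, map_mul, mul_comm, mul_assoc] at this
    exact (mul_right_cancel ((one_mul _).trans this)).symm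
  have h2 := SpecialLinearGroup.diagonal_transvection_induction' (fun x => ψ x = 1)
    ⟨g.1.1, mem_SA.1 g.2⟩ (fun i j h c hc => by
      simp only [P011.H748.diag2n_eq, map_mul, h1, mul_one]) h1
    fun a b c d => by simp only [map_mul, c, d, mul_one]
  have h3 : τ ⟨g.1.1, mem_SA.1 g.2⟩ = g := Subtype.ext (Units.ext rfl)
  exact h3 ▸ congrArg Units.val h2

variable {k K m L L' : Type} [Field k] [Field K] [Algebra k K] [Fintype m] [DecidableEq m]
  [CommRing L] [Algebra k L] [CommRing L'] [Algebra k L'] {G : Subgroup (GL m K)}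

/-- polynomials in the entries -/
abbrev Pl (m k : Type) [Field k] := MvPolynomial (m × m) k

/-- the value at a matrix -/
noncomputable def ev (x : Matrix m m L) : Pl m k →ₐ[k] L := MvPolynomial.aeval fun e => x e.1 e.2

theorem ev_map (ρ : L →ₐ[k] L') (x : Matrix m m L) (p : Pl m k) :
    ev (x.map ρ) p = ρ (ev x p) := by
  rw [← AlgHom.comp_apply, ev, ev, MvPolynomial.comp_aeval]
  rfl

variable (k) in
/-- the points -/
def Z (G : Subgroup (GL m K)) (L : Type) [CommRing L] [Algebra k L] : Set (Matrix m m L) :=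
  {x | ∀ p, Van k G p → ev (k := k) x p = 0}

theorem Z_map (ρ : L →ₐ[k] L') {x : Matrix m m L} (h : x ∈ Z k G L) : x.map ρ ∈ Z k G L' :=
  fun p hp => by rw [ev_map, h p hp, map_zero]

theorem Z_of {g : GL m K} (h : g ∈ G) : g.1 ∈ Z k G K := fun _ hp => hp g h

variable (k m L) in
/-- the polynomial functions -/
def pA : Submonoid (Matrix m m L → L) where
  carrier := Set.range fun (p : Pl m k) x => ev x p
  mul_mem' := by
    rintro _ _ ⟨p, rfl⟩ ⟨q, rfl⟩
    exact ⟨p * q, funext fun t => map_mul _ _ _⟩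
  one_mem' := ⟨1, funext fun t => map_one _⟩

theorem pv_id : (fun x => x) ∈ PV (pA k m L) (Matrix m m L) := pv_mat fun a b =>
  pv_self ⟨.X (a, b), funext fun _ => MvPolynomial.aeval_X _ _⟩

theorem pv_ev {T R : Type} [CommRing R] {𝒜 : Submonoid (T → R)} [Algebra R L]
    {u : T → Matrix m m L} (h : u ∈ PV 𝒜 (Matrix m m L)) (p : Pl m k) :
    (fun t => ev (u t) p) ∈ PV 𝒜 L :=
  pv_eval (algebraMap k L) (u := fun e t => u t e.1 e.2) (fun _ => pv_entry h _ _) p

/-- the generic matrix -/
noncomputable def gx (m k : Type) [Field k] : Matrix m m (Pl m k) := of fun a b => .X (a, b)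

theorem gx_map (x : Matrix m m L) : (gx m k).map (ev x) = x := by
  ext a b
  exact MvPolynomial.aeval_X _ _

theorem ev_det (x : Matrix m m L) : ev x (gx m k).det = x.det := by
  rw [AlgHom.map_det, AlgHom.mapMatrix_apply, gx_map]

theorem ev_adj (x : Matrix m m L) (p : Pl m k) :
    ev x (ev (gx m k).adjugate p) = ev x.adjugate p := by
  rw [← ev_map, ← AlgHom.mapMatrix_apply, AlgHom.map_adjugate, AlgHom.mapMatrix_apply, gx_map]

theorem Z_det (hd : ∀ g ∈ G, g.1.det = 1) {x : Matrix m m L} (h : x ∈ Z k G L) : x.det = 1 := by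
  have := h ((gx m k).det - 1) fun g hg => by
    change ev g.1 _ = 0
    rw [map_sub, ev_det, hd g hg, map_one, sub_self]
  rwa [map_sub, ev_det, map_one, sub_eq_zero] at this

theorem inv_adj {g : GL m L} (h : g.1.det = 1) : (g⁻¹).1 = g.1.adjugate :=
  Units.inv_eq_of_mul_eq_one_right (by rw [mul_adjugate, h, one_smul])

theorem Z_adj (hd : ∀ g ∈ G, g.1.det = 1) {x : Matrix m m L} (h : x ∈ Z k G L) :
    x.adjugate ∈ Z k G L := fun p hp => by
  rw [← ev_adj]
  refine h _ fun g hg => ?_
  change ev g.1 _ = 0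
  rw [ev_adj, ← inv_adj (hd g hg)]
  exact hp _ (inv_mem hg)

theorem Z_one : (1 : Matrix m m L) ∈ Z k G L := fun p hp => by
  have h1 := hp 1 G.one_mem
  have h2 := ev_map (Algebra.ofId k K) 1 p
  have h3 := ev_map (Algebra.ofId k L) 1 p
  rw [Matrix.map_one _ (map_zero _) (map_one _)] at h2 h3
  rw [h3, (map_eq_zero_iff _ (Algebra.ofId k K).injective).1 (h2.symm.trans h1), map_zero]

/-- the Galois action on `G` -/
def gs (e : Pts k G K = G) (σ : K ≃ₐ[k] K) : G →* G :=
  ((GeneralLinearGroup.map ((σ : K →ₐ[k] K) : K →+* K)).comp G.subtype).codRestrict G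
    fun g => stab_of e σ g.2

theorem gs_val (e : Pts k G K = G) (σ : K ≃ₐ[k] K) (g : G) :
    (gs e σ g).1.1 = g.1.1.map (σ : K →ₐ[k] K) := rfl

theorem gs_symm (e : Pts k G K = G) (σ : K ≃ₐ[k] K) (g : G) : gs e σ (gs e σ.symm g) = g :=
  Subtype.ext (Units.ext (Matrix.ext fun _ _ => σ.apply_symm_apply _))

variable [IsGalois k K] (e : Pts k G K = G)
include e

theorem bas : ∃ (ι : Type) (f : ι → Pl m k),
    LinearIndependent K (fun a (g : G) => ev g.1.1 (f a)) ∧
    ∀ (L : Type) [CommRing L] [Algebra k L], ∀ φ ∈ pA k m L, ∃ c : ι →₀ L, ∀ x ∈ Z k G L,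
      φ x = c.sum fun a r => ev x (f a) • r := by
  obtain ⟨ι, f, -, h1, h2⟩ := exists_linearIndependent' k fun (p : Pl m k) (g : G) => ev g.1.1 p
  refine ⟨ι, f, ind (fun σ => AddMonoidHom.mk' (fun F g => σ (F (gs e σ.symm g)))
    fun _ _ => funext fun _ => map_add _ _ _) (fun σ c v => funext fun g => map_mul σ _ _)
    (fun σ a => funext fun g => ?_) h2, ?_⟩
  · exact (ev_map (σ : K →ₐ[k] K) _ _).symm.trans (by rw [← gs_val e, gs_symm])
  rintro L _ _ _ ⟨p, rfl⟩
  obtain ⟨c, hc⟩ := Finsupp.mem_span_range_iff_exists_finsupp.1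
    (h1.ge (Submodule.subset_span ⟨p, rfl⟩))
  refine ⟨c.mapRange _ (map_zero (algebraMap k L)), fun x hx => ?_⟩
  have := hx (p - c.sum fun a r => r • f a) fun g hg => by
    change ev g.1 _ = 0
    rw [map_sub, sub_eq_zero, map_finsuppSum]
    refine (congrFun hc ⟨g, hg⟩).symm.trans ?_
    rw [Finsupp.sum, Finset.sum_apply]
    exact Finset.sum_congr rfl fun a _ => (map_smul (ev g.1) _ _).symm
  rw [map_sub, sub_eq_zero, map_finsuppSum] at this
  rw [Finsupp.sum_mapRange_index fun _ => smul_zero _]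
  exact this.trans (Finset.sum_congr rfl fun a _ => by
    simp only [map_smul, smul_eq_mul]; rw [Algebra.smul_def, mul_comm])

variable {V : Type} [AddCommGroup V] [Module L V] (ι : K →ₐ[k] L)

theorem ext {F : Matrix m m L → V} (h : F ∈ PV (pA k m L) V)
    (h0 : ∀ g ∈ G, F (g.1.map ι) = 0) : ∀ x ∈ Z k G L, F x = 0 := by
  obtain ⟨κ, f, h1, h2⟩ := bas e
  obtain ⟨E, hE⟩ := pv_coef (h2 L) h
  letI : Module K V := Module.compHom V (ι : K →+* L)
  have h3 := uni h1 E.support E fun g => by
    rw [← h0 g.1 g.2, hE _ (Z_map ι (Z_of g.2)), Finsupp.sum]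
    exact Finset.sum_congr rfl fun a _ => by rw [ev_map]; rfl
  intro x hx
  rw [hE x hx, Finsupp.sum]
  exact Finset.sum_eq_zero fun a ha => by rw [h3 a ha, smul_zero]

theorem ext₂ {F : Matrix m m L → Matrix m m L → V} (h : ∀ y, (fun x => F x y) ∈ PV (pA k m L) V)
    (h' : ∀ x, F x ∈ PV (pA k m L) V)
    (h0 : ∀ g ∈ G, ∀ g' ∈ G, F (g.1.map ι) (g'.1.map ι) = 0) :
    ∀ x ∈ Z k G L, ∀ y ∈ Z k G L, F x y = 0 := fun x hx y hy =>
  ext e ι (h y) (fun g hg => ext e ι (h' _) (h0 g hg) y hy) x hx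

include ι in
theorem Z_mul' {x y : Matrix m m L} (hx : x ∈ Z k G L) (hy : y ∈ Z k G L) : x * y ∈ Z k G L := by
  intro p hp
  refine ext₂ e ι (V := L) (F := fun x y => ev (x * y) p) (fun y => ?_) (fun x => ?_)
    (fun g hg g' hg' => ?_) x hx y hy
  · exact pv_ev (u := fun x => x * y) (pv_mmul pv_id (pv_const y)) p
  · exact pv_ev (u := fun y => x * y) (pv_mmul (pv_const x) pv_id) p
  · show ev _ p = 0
    rw [← Matrix.map_mul]
    exact Z_map ι (Z_of (G.mul_mem hg hg')) p hp

theorem Z_mul {x y : Matrix m m L} (hx : x ∈ Z k G L) (hy : y ∈ Z k G L) : x * y ∈ Z k G L := by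
  intro p hp
  refine (map_eq_zero_iff (Algebra.TensorProduct.includeRight : L →ₐ[k] K ⊗[k] L)
    (Algebra.TensorProduct.includeRight_injective (algebraMap k K).injective)).1 ?_
  rw [← ev_map, Matrix.map_mul]
  exact Z_mul' e Algebra.TensorProduct.includeLeft (Z_map _ hx) (Z_map _ hy) p hp

theorem Z_pts {L : Type} [Field L] [Algebra k L] (hd : ∀ g ∈ G, g.1.det = 1) {g : GL m L}
    (h : g ∈ Pts k G L) : g.1 ∈ Z k G L := by
  induction h using Subgroup.closure_induction with
  | mem g h => exact h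
  | one => exact Z_one
  | mul g g' _ _ h h' => exact Z_mul e h h'
  | inv g _ h => exact inv_adj (Z_det hd h) ▸ Z_adj hd h

end Vale.Agent.P011LB
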