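import Vale.Agent.P011LB.Ext
import Mathlib.Algebra.MvPolynomial.Monad

/-!
P011 (helper26): the algebra with involution of an outer form of `SL_n`.
-/

set_option linter.all false

open Matrix TensorProduct

namespace Vale.Agent.P011LB

open Vale.Agent.P011L Vale.Agent.P011LT

section

variable {k K m m' m'' : Type} [Field k] [Field K] [Algebra k K] [Fintype m] [DecidableEq m]
  [Fintype m'] [DecidableEq m'] [Fintype m''] [DecidableEq m''] {G : Subgroup (GL m K)}
  {H : Subgroup (GL m' K)} {J : Subgroup (GL m'' K)}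

theorem pol_trans {φ : G ≃* H} {ψ : H ≃* J} (h : Pol φ) (h' : Pol ψ) : Pol (φ.trans ψ) := by
  choose p hp using h
  intro i j
  obtain ⟨q, hq⟩ := h' i j
  refine ⟨MvPolynomial.bind₁ (fun e => p e.1 e.2) q, fun g => ?_⟩
  rw [MulEquiv.trans_apply, hq]
  simp only [hp]
  exact (MvPolynomial.eval₂Hom_bind₁ _ _ _ _).symm

theorem pol_tw {φ : G ≃* H} (h : Pol φ) {u : G ≃* G} {v : H ≃* H} (σ : K ≃ₐ[k] K)
    (hu : ∀ g, (u g).1.1 = g.1.1.map σ.symm) (hv : ∀ g, (v g).1.1 = g.1.1.map σ) :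
    Pol (u.trans (φ.trans v)) := fun i j => by
  obtain ⟨q, hq⟩ := h i j
  refine ⟨q.map (σ : K →+* K), fun g => ?_⟩
  rw [MulEquiv.trans_apply, MulEquiv.trans_apply, hv, map_apply, hq, hu, MvPolynomial.eval_map]
  refine (MvPolynomial.eval₂_comp_left (σ : K →+* K) (RingHom.id K) _ q).trans ?_
  congr 1
  exact funext fun e => σ.apply_symm_apply _

/-- the Galois action -/
def gE (h : Stab k G) (σ : K ≃ₐ[k] K) : G ≃* G where
  toFun g := ⟨GeneralLinearGroup.map (σ : K →+* K) g, (h σ g g.2).elim fun g' a =>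
    (Units.ext a.2 : g' = GeneralLinearGroup.map (σ : K →+* K) g) ▸ a.1⟩
  invFun g := ⟨GeneralLinearGroup.map (σ.symm : K →+* K) g, (h σ.symm g g.2).elim fun g' a =>
    (Units.ext a.2 : g' = GeneralLinearGroup.map (σ.symm : K →+* K) g) ▸ a.1⟩
  left_inv _ := Subtype.ext (Units.ext (Matrix.ext fun _ _ => σ.symm_apply_apply _))
  right_inv _ := Subtype.ext (Units.ext (Matrix.ext fun _ _ => σ.apply_symm_apply _))
  map_mul' _ _ := Subtype.ext (map_mul _ _ _)

end

/-- square matrices -/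
abbrev Mn (n : ℕ) (K : Type) := Matrix (Fin n) (Fin n) K

/-- pairs of matrices -/
abbrev BB (n : ℕ) (K : Type) := Mn n K × Mn n K

/-- the base change -/
noncomputable def lf {k A L M : Type} [Field k] [Ring A] [Algebra k A] [CommRing L] [Algebra k L]
    [Ring M] [Algebra k M] [Algebra L M] [IsScalarTower k L M] (w : A →ₐ[k] M) :
    L ⊗[k] A →ₐ[L] M :=
  Algebra.TensorProduct.lift (Algebra.ofId L M) w fun _ _ => Algebra.commute_algebraMap_left _ _

theorem lf_tmul {k A L M : Type} [Field k] [Ring A] [Algebra k A] [CommRing L] [Algebra k L]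
    [Ring M] [Algebra k M] [Algebra L M] [IsScalarTower k L M] (w : A →ₐ[k] M) (c : L) (a : A) :
    lf w (c ⊗ₜ a) = c • w a := (Algebra.smul_def c (w a)).symm

variable {k K m : Type} [Field k] [Field K] [Algebra k K] [Fintype m] [DecidableEq m]
  {G : Subgroup (GL m K)} {n : ℕ}

/-- the involution -/
def st (x : BB n K) : BB n K := (x.2ᵀ, x.1ᵀ)

/-- the representation and its dual -/
def th (φ : G ≃* SA K n) : G →* BB n K where
  toFun g := ((φ g).1.1, ((φ g)⁻¹).1.1ᵀ)
  map_one' := by simp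
  map_mul' g h := by simp

theorem th_inv (φ : G ≃* SA K n) (g : G) : th φ g⁻¹ = st (th φ g) := by
  simp [th, st]

theorem th_inj (φ : G ≃* SA K n) {g h : G} (e : (th φ g).1 = (th φ h).1) : g = h :=
  φ.injective (Subtype.ext (Units.ext e))

theorem span_th (hn : 3 ≤ n) (φ : G ≃* SA K n) (S : Subalgebra K (BB n K))
    (h : ∀ g, th φ g ∈ S) (x : BB n K) : x ∈ S := by
  have h1 : ∀ i j : Fin n, i ≠ j → (single i j 1, -single j i 1) ∈ S := fun i j a => by
    have := S.sub_mem (h (φ.symm ⟨(SpecialLinearGroup.transvection a (1 : K)).toGL,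
      mem_SA.2 (SpecialLinearGroup.transvection a (1 : K)).2⟩)) S.one_mem
    convert this using 1
    have e : ((SpecialLinearGroup.transvection a (1 : K)).toGL⁻¹).1 = 1 + single i j (-1) := by
      rw [← map_inv, SpecialLinearGroup.transvection_inv]
      rfl
    refine Prod.ext ?_ ?_
    · simp [th, SpecialLinearGroup.transvection_coe]
    · simp only [th, MonoidHom.coe_mk, OneHom.coe_mk, MulEquiv.apply_symm_apply, Prod.snd_sub,
        Prod.snd_one, Subgroup.coe_inv, e]
      simp [single_neg]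
  have h2 : ∀ i j : Fin n, i ≠ j → (single i j 1, 0) ∈ S := fun i j a => by
    obtain ⟨l, b, c⟩ := Fin.exists_ne_and_ne_of_two_lt i j (by omega)
    simpa [single_mul_single_of_ne _ _ _ _ a] using S.mul_mem (h1 i l b.symm) (h1 l j c)
  have h3 : ∀ i j : Fin n, i ≠ j → (0, single i j 1) ∈ S := fun i j a => by
    simpa using S.sub_mem (h2 j i a.symm) (h1 j i a.symm)
  have h4 : ∀ i j : Fin n, (single i j 1, 0) ∈ S ∧ (0, single i j 1) ∈ S := fun i j => by
    by_cases a : i = j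
    · obtain ⟨l, b, c⟩ := Fin.exists_ne_and_ne_of_two_lt i j (by omega)
      exact ⟨by simpa using S.mul_mem (h2 i l b.symm) (h2 l j c),
        by simpa using S.mul_mem (h3 i l b.symm) (h3 l j c)⟩
    · exact ⟨h2 i j a, h3 i j a⟩
  have e : x = ∑ i, ∑ j, (x.1 i j • (single i j 1, 0) + x.2 i j • (0, single i j 1)) := by
    refine Prod.ext ?_ ?_ <;>
      simpa [Prod.fst_sum, Prod.snd_sum] using matrix_eq_sum_single _
  rw [e]
  exact S.sum_mem fun i _ => S.sum_mem fun j _ =>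
    S.add_mem (S.smul_mem (h4 i j).1 _) (S.smul_mem (h4 i j).2 _)

/-- the conjugation -/
def cj (s : GL (Fin n) K) (σ : K →+* K) : Mn n K →+* Mn n K where
  toFun x := s.1 * x.map σ * (s⁻¹).1
  map_one' := by simp
  map_mul' x y := by simp [Matrix.mul_assoc]
  map_zero' := by simp
  map_add' x y := by rw [Matrix.map_add _ (map_add σ), Matrix.mul_add, Matrix.add_mul]

/-- the inverse of the transpose -/
def ti (s : GL (Fin n) K) : GL (Fin n) K :=
  ⟨(s⁻¹).1ᵀ, s.1ᵀ, by rw [← transpose_mul, Units.mul_inv, transpose_one],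
    by rw [← transpose_mul, Units.inv_mul, transpose_one]⟩

theorem cj_smul (s : GL (Fin n) K) (σ : K →+* K) (c : K) (x : Mn n K) :
    cj s σ (c • x) = σ c • cj s σ x := by
  show s.1 * (c • x).map σ * _ = σ c • (s.1 * x.map σ * _)
  rw [show (c • x).map σ = σ c • x.map σ from Matrix.ext fun _ _ => map_mul σ _ _,
    Matrix.mul_smul, Matrix.smul_mul]

theorem cj_tr (s : GL (Fin n) K) (σ : K →+* K) (x : Mn n K) : cj (ti s) σ xᵀ = (cj s σ x)ᵀ := by
  show _ = (s.1 * x.map σ * _)ᵀ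
  rw [transpose_mul, transpose_mul, ← Matrix.mul_assoc]
  rfl

theorem cj_mul (s : GL (Fin n) K) (σ : K →+* K) (x : Mn n K) : cj s σ x * s.1 = s.1 * x.map σ :=
  Units.inv_mul_cancel_right _ s

theorem exists_p (a1 : A1) [IsSepClosure k K] (hn : 3 ≤ n) {φ : G ≃* SA K n} (h : Form k φ)
    (σ : K ≃ₐ[k] K) : ∃ p : BB n K →+* BB n K, (∀ (c : K) x, p (c • x) = σ c • p x) ∧
      (∀ x, p (st x) = st (p x)) ∧ (∀ g, p (th φ g) = th φ (gs h.1 σ g)) ∧
      (¬Inn φ ⊤ σ → ∃ s : GL (Fin n) K, ∀ x, (p x).1 * s.1 = s.1 * x.2.map σ) := by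
  haveI := IsSepClosure.sep_closed k (K := K)
  have sG : Stab k G := fun σ g a => ⟨_, stab_of h.1 σ a, rfl⟩
  obtain ⟨s, hs⟩ := a1 K n hn
    (((gE (stab_SA k n) σ).symm.trans (φ.symm.trans (gE sG σ))).trans φ)
    (pol_trans (pol_tw h.2.2 σ (fun _ => rfl) fun _ => rfl) h.2.1)
    (pol_trans h.2.2 (pol_tw (u := (gE sG σ).symm) (v := gE (stab_SA k n) σ.symm.symm) h.2.1 σ
      (fun _ => rfl) fun _ => rfl))
  have k1 : ∀ p : BB n K →+* BB n K, (∀ x, p (st x) = st (p x)) →
      (∀ g, (p (th φ g)).1 * s.1 = (th φ (gs h.1 σ g)).1 * s.1) →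
      ∀ g, p (th φ g) = th φ (gs h.1 σ g) := fun p a b g => by
    refine Prod.ext (s.isUnit.mul_right_cancel (b g)) (transpose_injective ?_)
    have := s.isUnit.mul_right_cancel (b g⁻¹)
    rwa [map_inv (gs h.1 σ), th_inv, th_inv, a] at this
  have k2 : ∀ g, (((gE (stab_SA k n) σ).symm.trans (φ.symm.trans (gE sG σ))).trans φ)
      (gE (stab_SA k n) σ (φ g)) = φ (gs h.1 σ g) := fun g => by
    simp only [MulEquiv.trans_apply, MulEquiv.symm_apply_apply]
    rfl
  have k3 : ∀ x, (cj s σ).prodMap (cj (ti s) σ) (st x) = st ((cj s σ).prodMap (cj (ti s) σ) x) :=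
    fun x => Prod.ext (transpose_injective (cj_tr s σ x.2ᵀ).symm) (cj_tr s σ x.1)
  rcases hs with hs | hs
  · refine ⟨(cj s σ).prodMap (cj (ti s) σ), fun c x => Prod.ext (cj_smul _ _ _ _) (cj_smul _ _ _ _),
      k3, k1 _ k3 fun g => (cj_mul _ _ _).trans ?_, fun a => (a ⟨s, trivial, fun g g' b => ?_⟩).elim⟩
    · have := hs (gE (stab_SA k n) σ (φ g))
      rw [k2] at this
      exact this.symm
    · have := hs (gE (stab_SA k n) σ (φ g))
      rw [k2, show gs h.1 σ g = g' from Subtype.ext (Units.ext b.symm)] at this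
      exact this
  · let p : BB n K →+* BB n K := ((cj s σ).comp (.snd _ _)).prod ((cj (ti s) σ).comp (.fst _ _))
    have k4 : ∀ x, p (st x) = st (p x) := fun x => k3 x.swap
    refine ⟨p, fun c x => Prod.ext (cj_smul s σ c x.2) (cj_smul (ti s) σ c x.1), k4,
      k1 _ k4 fun g => (cj_mul s σ (th φ g).2).trans ?_, fun _ => ⟨s, fun x => cj_mul s σ x.2⟩⟩
    have := hs (gE (stab_SA k n) σ (φ g))
    rw [k2, ← map_inv] at this
    exact this.symm

variable (k) in
/-- the algebra with involution of the form -/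
structure Md (φ : G ≃* SA K n) (A : Type) [Ring A] [StarRing A] [Algebra k A] where
  j : A →ₐ[k] BB n K
  st : ∀ a, j (star a) = st (j a)
  bij : Function.Bijective (lf j : K ⊗[k] A →ₐ[K] BB n K)
  out : ∃ (σ : K ≃ₐ[k] K) (s : GL (Fin n) K), ∀ a, (j a).1 * s.1 = s.1 * (j a).2.map σ
  ι : Type
  s : Finset ι
  f : ι → Pl m k
  a : ι → A
  th : ∀ g, th φ g = ∑ i ∈ s, ev g.1.1 (f i) • j (a i)
  rat : ∀ g u, P011LB.th φ g = j u → ∀ σ : K ≃ₐ[k] K, g.1.1.map σ = g.1.1

theorem exists_th [IsGalois k K] {φ : G ≃* SA K n} (h : Form k φ) :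
    ∃ (ι : Type) (f : ι → Pl m k) (E : ι →₀ BB n K),
      LinearIndependent K (fun a (g : G) => ev g.1.1 (f a)) ∧
      ∀ g, th φ g = ∑ i ∈ E.support, ev g.1.1 (f i) • E i := by
  obtain ⟨ι, f, f1, f2⟩ := bas h.1
  choose q hq using h.2.1
  let X : Matrix m m K → Mn n K := fun x => of fun a b =>
    MvPolynomial.eval₂ (RingHom.id K) (fun e => x e.1 e.2) (q a b)
  have hX : X ∈ PV (pA k m K) (Mn n K) := pv_mat fun a b =>
    pv_eval (RingHom.id K) (u := fun (e : m × m) (x : Matrix m m K) => x e.1 e.2)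
      (fun e => pv_entry pv_id e.1 e.2) (q a b)
  have h1 := pv_map (LinearMap.inl K (Mn n K) (Mn n K)) hX
  have h2 := pv_map ((LinearMap.inr K (Mn n K) (Mn n K)).comp
      (transposeLinearEquiv (Fin n) (Fin n) K K).toLinearMap) (pv_adj hX)
  obtain ⟨E, hE⟩ := pv_coef (f2 K) (pv_add h1 h2)
  refine ⟨ι, f, E, f1, fun g => ?_⟩
  have e0 : X g.1.1 = (φ g).1.1 := Matrix.ext fun a b => (hq a b g).symm
  refine Eq.trans ?_ (hE _ (Z_of g.2))
  rw [e0, ← inv_adj (mem_SA.1 (φ g).2)]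
  exact Prod.ext (add_zero _).symm (zero_add _).symm

theorem exists_md (a1 : A1) [IsSepClosure k K] (hn : 3 ≤ n) {φ : G ≃* SA K n} (h : Form k φ)
    (ho : ∃ σ : K ≃ₐ[k] K, ¬Inn φ ⊤ σ) :
    ∃ (A : Type) (_ : Ring A) (_ : StarRing A) (_ : Algebra k A), Nonempty (Md k φ A) := by
  choose p p1 p2 p3 p4 using exists_p a1 hn h
  let A : Subalgebra k (BB n K) :=
    { carrier := {x | ∀ σ, p σ x = x}
      mul_mem' := fun a b σ => by rw [map_mul, a σ, b σ]
      add_mem' := fun a b σ => by rw [map_add, a σ, b σ]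
      algebraMap_mem' := fun c σ => by
        rw [IsScalarTower.algebraMap_apply k K, Algebra.algebraMap_eq_smul_one, p1, map_one,
          AlgEquiv.commutes] }
  letI : StarRing A :=
    { star := fun x => ⟨st x.1, fun σ => by rw [p2, x.2 σ]⟩
      star_involutive := fun x => rfl
      star_mul := fun x y => Subtype.ext (Prod.ext (transpose_mul _ _) (transpose_mul _ _))
      star_add := fun x y => rfl }
  obtain ⟨ι, f, E, f1, e1⟩ := exists_th h
  have e2 : ∀ i, E i ∈ A := fun i σ => by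
    by_cases hi : i ∈ E.support
    · refine sub_eq_zero.1 (uni f1 E.support (fun i => p σ (E i) - E i) (fun g => ?_) i hi)
      have := p3 σ (gs h.1 σ.symm g)
      rw [gs_symm, e1, e1, map_sum] at this
      simp only [smul_sub, Finset.sum_sub_distrib, ← this, sub_eq_zero]
      refine Finset.sum_congr rfl fun i _ => ?_
      rw [p1]
      congr 1
      exact ((ev_map (σ : K →ₐ[k] K) _ _).symm.trans (by rw [← gs_val h.1, gs_symm])).symm
    · rw [Finsupp.notMem_support_iff.1 hi, map_zero]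
  obtain ⟨σ, hσ⟩ := ho
  obtain ⟨s, hs⟩ := p4 σ hσ
  refine ⟨A, _, inferInstance, _, ⟨A.val, fun _ => rfl, ⟨?_, fun x => ?_⟩,
    ⟨σ, s, fun a => by have := hs a; rwa [a.2 σ] at this⟩, ι, E.support, f, fun i => ⟨E i, e2 i⟩, e1,
    fun g u a τ => ?_⟩⟩
  · classical
    let b := Module.Basis.ofVectorSpace k A
    have b1 : LinearIndependent K (A.val ∘ b) := ind (fun σ => (p σ).toAddMonoidHom) p1
      (fun σ i => (b i).2 σ) (b.linearIndependent.map' A.val.toLinearMap
        (LinearMap.ker_eq_bot.2 Subtype.val_injective))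
    refine (injective_iff_map_eq_zero _).2 fun T hT => ?_
    obtain ⟨c, rfl⟩ := TensorProduct.eq_repr_basis_right b T
    rw [map_finsuppSum] at hT
    simp only [lf_tmul] at hT
    rw [linearIndependent_iff.1 b1 c hT, Finsupp.sum_zero_index]
  · refine span_th hn φ (lf A.val).range (fun g => ?_) x
    rw [e1]
    exact Subalgebra.sum_mem _ fun i _ => ⟨ev g.1.1 (f i) ⊗ₜ ⟨E i, e2 i⟩, lf_tmul _ _ _⟩
  · have := p3 τ g
    rw [a, show p τ (A.val u) = A.val u from u.2 τ, ← a] at this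
    exact congrArg (·.1.1) (th_inj φ (congrArg Prod.fst this)).symm

end Vale.Agent.P011LB
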