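import Mathlib.LinearAlgebra.Dual.Lemmas
import Mathlib.LinearAlgebra.Matrix.Adjugate
import Mathlib.Algebra.MvPolynomial.Eval
import Mathlib.FieldTheory.Galois.Infinite
import Vale.Agent.P011LA.Tor

/-!
P011 (helper26): spans of functions with coefficients in a module.
-/

set_option linter.all false

open Matrix

namespace Vale.Agent.P011LB

section

variable {T R V W X : Type} [CommRing R] [AddCommGroup V] [Module R V] [AddCommGroup W] [Module R W]
  [AddCommGroup X] [Module R X]

/-- the combinations of the functions in `𝒜` with coefficients in `V` -/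
def PV (𝒜 : Submonoid (T → R)) (V : Type) [AddCommGroup V] [Module R V] : Submodule R (T → V) :=
  Submodule.span R {F | ∃ φ ∈ 𝒜, ∃ v, F = fun t => φ t • v}

variable {𝒜 : Submonoid (T → R)}

theorem pv_gen {φ : T → R} (h : φ ∈ 𝒜) (v : V) : (fun t => φ t • v) ∈ PV 𝒜 V :=
  Submodule.subset_span ⟨φ, h, v, rfl⟩

theorem pv_const (v : V) : (fun _ => v) ∈ PV 𝒜 V := by
  simpa using pv_gen 𝒜.one_mem v

theorem pv_self {φ : T → R} (h : φ ∈ 𝒜) : φ ∈ PV 𝒜 R := by
  simpa using pv_gen h (1 : R)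

theorem pv_add {F F' : T → V} (h : F ∈ PV 𝒜 V) (h' : F' ∈ PV 𝒜 V) :
    (fun t => F t + F' t) ∈ PV 𝒜 V := add_mem h h'

theorem pv_sub {F F' : T → V} (h : F ∈ PV 𝒜 V) (h' : F' ∈ PV 𝒜 V) :
    (fun t => F t - F' t) ∈ PV 𝒜 V := sub_mem h h'

theorem pv_sum {ι : Type} (s : Finset ι) {F : ι → T → V} (h : ∀ i, F i ∈ PV 𝒜 V) :
    (fun t => ∑ i ∈ s, F i t) ∈ PV 𝒜 V := by
  have := Submodule.sum_mem (PV 𝒜 V) fun i (_ : i ∈ s) => h i
  convert this using 1
  funext t
  rw [Finset.sum_apply]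

theorem pv_bil (β : V →ₗ[R] W →ₗ[R] X) {F : T → V} {F' : T → W} (h : F ∈ PV 𝒜 V)
    (h' : F' ∈ PV 𝒜 W) : (fun t => β (F t) (F' t)) ∈ PV 𝒜 X := by
  induction h using Submodule.span_induction with
  | zero => simpa using pv_const (0 : X)
  | add a b _ _ ha hb => simpa using pv_add ha hb
  | smul c a _ ha => simpa [Pi.smul_def] using (PV 𝒜 X).smul_mem c ha
  | mem a ha =>
    obtain ⟨φ, hφ, v, rfl⟩ := ha
    induction h' using Submodule.span_induction with
    | zero => simpa using pv_const (0 : X)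
    | add a b _ _ ha hb => simpa using pv_add ha hb
    | smul c a _ ha =>
      have := (PV 𝒜 X).smul_mem c ha
      convert this using 1
      funext t
      simp [smul_comm c]
    | mem a ha =>
      obtain ⟨ψ, hψ, w, rfl⟩ := ha
      convert pv_gen (𝒜.mul_mem hψ hφ) (β v w) using 1
      funext t
      simp [mul_smul]

theorem pv_map (l : V →ₗ[R] W) {F : T → V} (h : F ∈ PV 𝒜 V) : (fun t => l (F t)) ∈ PV 𝒜 W := by
  simpa using pv_bil ((LinearMap.lsmul R W).flip.comp l) h (pv_const (1 : R))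

theorem pv_smul {φ : T → R} {F : T → V} (h : φ ∈ PV 𝒜 R) (h' : F ∈ PV 𝒜 V) :
    (fun t => φ t • F t) ∈ PV 𝒜 V := pv_bil (LinearMap.lsmul R V) h h'

theorem pv_mul {M : Type} [Ring M] [Algebra R M] {F F' : T → M} (h : F ∈ PV 𝒜 M)
    (h' : F' ∈ PV 𝒜 M) : (fun t => F t * F' t) ∈ PV 𝒜 M := pv_bil (LinearMap.mul R M) h h'

variable {S C σ n : Type} [CommRing S] [Algebra R S] [CommRing C] [Fintype n] [DecidableEq n]

theorem pv_eval (ρ : C →+* S) {u : σ → T → S} (h : ∀ e, u e ∈ PV 𝒜 S) (q : MvPolynomial σ C) :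
    (fun t => MvPolynomial.eval₂ ρ (fun e => u e t) q) ∈ PV 𝒜 S := by
  induction q using MvPolynomial.induction_on with
  | C a => simpa using pv_const (ρ a)
  | add p q a b => simpa using pv_add a b
  | mul_X p e a => simpa using pv_mul a (h e)

theorem pv_prod {ι : Type} (s : Finset ι) {F : ι → T → S} (h : ∀ i, F i ∈ PV 𝒜 S) :
    (fun t => ∏ i ∈ s, F i t) ∈ PV 𝒜 S := by
  classical
  induction s using Finset.induction_on with
  | empty => simpa using pv_const (1 : S)
  | insert i s hi ih => simpa [Finset.prod_insert hi] using pv_mul (h i) ih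

theorem pv_entry {F : T → Matrix n n V} (h : F ∈ PV 𝒜 (Matrix n n V)) (a b : n) :
    (fun t => F t a b) ∈ PV 𝒜 V := pv_map (entryLinearMap R V a b) h

theorem pv_mat {F : T → Matrix n n V} (h : ∀ a b, (fun t => F t a b) ∈ PV 𝒜 V) :
    F ∈ PV 𝒜 (Matrix n n V) := by
  convert pv_sum Finset.univ fun a => pv_sum Finset.univ fun b =>
    pv_map (singleLinearMap R a b) (h a b) using 1
  funext t
  exact matrix_eq_sum_single _

theorem pv_mmul {F F' : T → Matrix n n S} (h : F ∈ PV 𝒜 (Matrix n n S))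
    (h' : F' ∈ PV 𝒜 (Matrix n n S)) : (fun t => F t * F' t) ∈ PV 𝒜 (Matrix n n S) :=
  pv_mul (M := Matrix n n S) (F := F) (F' := F') h h'

theorem pv_det {F : T → Matrix n n S} (h : F ∈ PV 𝒜 (Matrix n n S)) :
    (fun t => (F t).det) ∈ PV 𝒜 S := by
  simp only [det_apply']
  exact pv_sum _ fun s => pv_mul (pv_const _) (pv_prod _ fun i => pv_entry h _ _)

theorem pv_adj {F : T → Matrix n n S} (h : F ∈ PV 𝒜 (Matrix n n S)) :
    (fun t => (F t).adjugate) ∈ PV 𝒜 (Matrix n n S) := pv_mat fun a b => by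
  simp only [adjugate_apply]
  refine pv_det (pv_mat fun c d => ?_)
  simp only [updateRow_apply]
  split_ifs
  exacts [pv_const _, pv_entry h _ _]

/-- the coefficients -/
theorem pv_coef {ι : Type} {e : ι → T → R} {Z : Set T}
    (he : ∀ φ ∈ 𝒜, ∃ c : ι →₀ R, ∀ x ∈ Z, φ x = c.sum fun a r => e a x • r) {F : T → V}
    (h : F ∈ PV 𝒜 V) : ∃ E : ι →₀ V, ∀ x ∈ Z, F x = E.sum fun a v => e a x • v := by
  have k1 : ∀ {U : Type} [AddCommGroup U] [Module R U] (l : U →ₗ[R] V) (E : ι →₀ U) x,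
      ((E.mapRange l l.map_zero).sum fun a v => e a x • v) = l (E.sum fun a v => e a x • v) :=
    fun l E x => by
      rw [Finsupp.sum_mapRange_index fun _ => smul_zero _, map_finsuppSum]
      simp only [map_smul]
  induction h using Submodule.span_induction with
  | zero => exact ⟨0, fun _ _ => by simp⟩
  | add a b _ _ ha hb =>
    obtain ⟨E, h1⟩ := ha
    obtain ⟨E', h2⟩ := hb
    exact ⟨E + E', fun x hx => by
      rw [Finsupp.sum_add_index' (fun _ => smul_zero _) fun _ => smul_add _, ← h1 x hx, ← h2 x hx,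
        Pi.add_apply]⟩
  | smul c a _ ha =>
    obtain ⟨E, h1⟩ := ha
    exact ⟨_, fun x hx => by rw [k1 (LinearMap.lsmul R V c), ← h1 x hx]; rfl⟩
  | mem a ha =>
    obtain ⟨φ, hφ, v, rfl⟩ := ha
    obtain ⟨c, h1⟩ := he φ hφ
    exact ⟨_, fun x hx => by rw [k1 (LinearMap.toSpanSingleton R V v), ← h1 x hx]; rfl⟩

end

/-- uniqueness of the coefficients -/
theorem uni {T F V ι : Type} [Field F] [AddCommGroup V] [Module F V] {e : ι → T → F}
    (he : LinearIndependent F e) (s : Finset ι) (v : ι → V) (h : ∀ x, ∑ a ∈ s, e a x • v a = 0) :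
    ∀ a ∈ s, v a = 0 := fun a ha => (Module.forall_dual_apply_eq_zero_iff F _).1 fun l =>
  linearIndependent_iff'.1 he s (fun a => l (v a)) (funext fun x => by
    have := congrArg l (h x)
    simpa [Finset.sum_apply, mul_comm] using this) a ha

/-- fixed vectors of semilinear maps -/
theorem ind {k K V ι : Type} [Field k] [Field K] [Algebra k K] [IsGalois k K] [AddCommGroup V]
    [Module K V] [Module k V] [IsScalarTower k K V] (a : (K ≃ₐ[k] K) → V →+ V)
    (ha : ∀ σ (c : K) v, a σ (c • v) = σ c • a σ v) {b : ι → V} (hb : ∀ σ i, a σ (b i) = b i)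
    (hi : LinearIndependent k b) : LinearIndependent K b := by
  classical
  refine linearIndependent_iff'.2 fun s => ?_
  induction s using Finset.induction_on with
  | empty => simp
  | insert j s hj ih =>
    intro c hc
    by_cases e : c j = 0
    · rw [Finset.sum_insert hj, e, zero_smul, zero_add] at hc
      exact fun i m => (Finset.mem_insert.1 m).elim (fun l => l ▸ e) (ih c hc i)
    have h1 : ∑ i ∈ insert j s, ((c j)⁻¹ * c i) • b i = 0 := by
      simp only [mul_smul, ← Finset.smul_sum, hc, smul_zero]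
    have h4 : ∀ i, ∃ r : k, i ∈ insert j s → algebraMap k K r = (c j)⁻¹ * c i := fun i => by
      by_cases m : i ∈ insert j s
      swap
      · exact ⟨0, fun l => absurd l m⟩
      refine ((InfiniteGalois.mem_bot_iff_fixed _).2 fun σ => ?_).imp fun r e _ => e
      rcases Finset.mem_insert.1 m with rfl | m
      · rw [inv_mul_cancel₀ e, map_one]
      refine sub_eq_zero.1 (ih (fun i => σ ((c j)⁻¹ * c i) - (c j)⁻¹ * c i) ?_ i m)
      have h3 := congrArg (a σ) h1
      rw [map_sum, map_zero, ← h1] at h3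
      simp only [ha, hb, Finset.sum_insert hj, inv_mul_cancel₀ e, map_one, add_right_inj] at h3
      simp only [sub_smul, Finset.sum_sub_distrib, h3, sub_self]
    choose r hr using h4
    have h2 := linearIndependent_iff'.1 hi (insert j s) r (h1 ▸ Finset.sum_congr rfl fun i m => by
      rw [← hr i m, algebraMap_smul]) j (Finset.mem_insert_self j s)
    have h5 := hr j (Finset.mem_insert_self j s)
    rw [h2, map_zero, inv_mul_cancel₀ e] at h5
    exact absurd h5 zero_ne_one

section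

variable {L : Type} [Field L]

/-- the characters of the multiplicative group -/
def pw (j : ℤ) (t : Lˣ) : L := ((t ^ j : Lˣ) : L)

/-- the characters of the multiplicative group -/
def cA (L : Type) [Field L] : Submonoid (Lˣ → L) where
  carrier := Set.range pw
  mul_mem' := by
    rintro _ _ ⟨i, rfl⟩ ⟨j, rfl⟩
    exact ⟨i + j, funext fun t => by simp [pw, zpow_add]⟩
  one_mem' := ⟨0, funext fun t => by simp [pw]⟩

theorem pw_mem (j : ℤ) : pw j ∈ cA L := ⟨j, rfl⟩

theorem pw_mul (j : ℤ) (t s : Lˣ) : pw j (t * s) = pw j t * pw j s := by simp [pw, mul_zpow]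

variable [Infinite L]

theorem pw_li : LinearIndependent L (pw : ℤ → Lˣ → L) :=
  (linearIndependent_monoidHom Lˣ L).comp
    (fun j : ℤ => (Units.coeHom L).comp (zpowGroupHom j)) fun i j e =>
      sub_eq_zero.1 (P011LA.zpow_inj (K := L) fun t => by
        rw [zpow_sub, mul_inv_eq_one]
        exact Units.ext (DFunLike.congr_fun e t))

/-- the weight decomposition -/
theorem eig {M : Type} [Ring M] [Algebra L M] (μ : Lˣ →* M) (h : (μ : Lˣ → M) ∈ PV (cA L) M) :
    ∃ (s : Finset ℤ) (E : ℤ → M), ∑ j ∈ s, E j = 1 ∧ ∀ j ∈ s, ∀ t, μ t * E j = pw j t • E j := by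
  obtain ⟨E, hE⟩ := pv_coef (e := pw) (Z := Set.univ) (fun φ (a : φ ∈ cA L) =>
    let ⟨j, e⟩ : φ ∈ Set.range pw := a; ⟨Finsupp.single j 1, fun x _ => by simp [e]⟩) h
  refine ⟨E.support, E, ?_, fun j hj t => sub_eq_zero.1
    (uni (pw_li (L := L)) E.support (fun j => μ t * E j - pw j t • E j) (fun x => ?_) j hj)⟩
  · simpa [pw, Finsupp.sum] using (hE 1 trivial).symm
  · have := hE (t * x) trivial
    rw [map_mul, hE x trivial, Finsupp.sum, Finsupp.sum, Finset.mul_sum] at this
    simp only [smul_sub, Finset.sum_sub_distrib, ← mul_smul_comm, this, pw_mul, smul_smul,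
      mul_comm (pw _ x), sub_self]

theorem scal {M : Type} [Ring M] [Algebra L M] [Nontrivial M] (hM : ∀ x : M, x ≠ 0 → IsUnit x)
    (μ : Lˣ →* M) (h : (μ : Lˣ → M) ∈ PV (cA L) M) : ∃ j, ∀ t, μ t = algebraMap L M (pw j t) := by
  obtain ⟨s, E, h1, h2⟩ := eig μ h
  obtain ⟨j, hj, h3⟩ := Finset.exists_ne_zero_of_sum_ne_zero (h1 ▸ one_ne_zero : ∑ j ∈ s, E j ≠ 0)
  exact ⟨j, fun t => (hM _ h3).mul_right_cancel (by rw [h2 j hj, Algebra.smul_def])⟩

/-- diagonalisation -/
theorem diag {m : Type} [Fintype m] [DecidableEq m] (μ : Lˣ →* Matrix m m L)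
    (h : (μ : Lˣ → Matrix m m L) ∈ PV (cA L) (Matrix m m L)) :
    ∃ (g : GL m L) (y : m → ℤ), ∀ t, μ t * g.1 = g.1 * diagonal fun i => pw (y i) t := by
  obtain ⟨s, E, h1, h2⟩ := eig μ h
  obtain ⟨b, b1, b2, b3⟩ := exists_linearIndependent L {v : m → L | ∃ j, ∀ t, μ t *ᵥ v = pw j t • v}
  have e : ⊤ ≤ Submodule.span L (Set.range (Subtype.val : b → m → L)) := fun v _ => by
    rw [Subtype.range_coe, b2, ← one_mulVec v, ← h1, sum_mulVec]
    exact Submodule.sum_mem _ fun j hj => Submodule.subset_span ⟨j, fun t => by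
      rw [mulVec_mulVec, h2 j hj, smul_mulVec]⟩
  let c := Module.Basis.mk b3 e
  have := FiniteDimensional.fintypeBasisIndex c
  let d := c.reindex (Fintype.equivOfCardEq (β := m)
    ((Module.finrank_eq_card_basis c).symm.trans (Module.finrank_fintype_fun_eq_card L)))
  have h4 : ∀ i, ∃ j, ∀ t, μ t *ᵥ d i = pw j t • d i := fun i => by
    rw [Module.Basis.reindex_apply, Module.Basis.mk_apply]
    exact b1 (Subtype.prop _)
  choose y hy using h4
  obtain ⟨g, hg⟩ : IsUnit (of d)ᵀ := linearIndependent_cols_iff_isUnit.1 d.linearIndependent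
  refine ⟨g, y, fun t => ?_⟩
  rw [hg]
  ext i j
  rw [mul_diagonal, mul_comm]
  exact congrFun (hy j t) i

end

end Vale.Agent.P011LB
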