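import Vale.Agent.P011LB.Ctr

/-!
P011 (helper26): the map from the points of `G` to the algebra.
-/

set_option linter.all false

open Matrix TensorProduct

namespace Vale.Agent.P011LB

open Vale.Agent.P011L Vale.Agent.P011LT

variable {k K m A L L' X X' : Type} [Field k] [Field K] [Algebra k K] [Fintype m] [DecidableEq m]
  {G : Subgroup (GL m K)} {n : ℕ} {φ : G ≃* SA K n} [Ring A] [StarRing A] [Algebra k A]
  (M : Md k φ A) [CommRing L] [Algebra k L] [CommRing L'] [Algebra k L']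

namespace Md

section

variable [AddCommGroup X] [Module L X] [AddCommGroup X'] [Module L' X']

/-- the image of a point -/
noncomputable def ps (w : A → X) (x : Matrix m m L) : X :=
  ∑ i ∈ M.s, ev (k := k) x (M.f i) • w (M.a i)

theorem ps_nat (r : L →ₐ[k] L') (τ : X →+ X') {w : A → X} {w' : A → X'}
    (h : ∀ (c : L) a, τ (c • w a) = r c • w' a) (x : Matrix m m L) :
    τ (M.ps w x) = M.ps w' (x.map r) := by
  simp only [ps, map_sum, h, ev_map]

theorem pv_ps {T : Type} {𝒜 : Submonoid (T → L)} {u : T → Matrix m m L}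
    (h : u ∈ PV 𝒜 (Matrix m m L)) (w : A → X) : (fun t => M.ps w (u t)) ∈ PV 𝒜 X :=
  pv_sum _ fun _ => pv_smul (pv_ev h _) (pv_const _)

theorem ps_j (g : G) : M.ps M.j g.1.1 = P011LB.th φ g := (M.th g).symm

theorem ps_st (g : G) : M.ps (fun a => M.j (star a)) g.1.1 = P011LB.th φ g⁻¹ := by
  rw [th_inv, ← M.ps_j]
  exact (M.ps_nat (AlgHom.id k K) (AddMonoidHom.mk' P011LB.st fun _ _ => rfl)
    (fun c a => by rw [M.st]; rfl) _).symm

end

variable [Ring X] [Algebra k X] [Algebra L X] [IsScalarTower k L X]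

theorem exists_gam (ι : K →ₐ[k] L) (w : A →ₐ[k] X) : ∃ γ : BB n K →+* X, ∀ (s : A → A) x,
    γ (M.ps (fun a => M.j (s a)) x) = M.ps (fun a => w (s a)) (x.map ι) := by
  let l : K ⊗[k] A →ₐ[k] X := Algebra.TensorProduct.lift ((IsScalarTower.toAlgHom k L X).comp ι) w
    fun _ _ => Algebra.commute_algebraMap_left _ _
  let γ := l.toRingHom.comp (AlgEquiv.ofBijective _ M.bij).symm.toRingEquiv.toRingHom
  refine ⟨γ, fun s => M.ps_nat ι γ.toAddMonoidHom fun c a => ?_⟩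
  rw [← lf_tmul]
  exact (congrArg l ((AlgEquiv.ofBijective _ M.bij).symm_apply_apply (c ⊗ₜ s a))).trans
    (Algebra.smul_def (ι c) (w (s a))).symm

theorem tau (L : Type) [CommRing L] [Algebra k L] :
    ∃ τ : L ⊗[k] A →+* (K ⊗[k] L) ⊗[k] A, Function.Injective τ ∧ ∀ (s : A → A) (x : Matrix m m L),
      τ (M.ps (fun a => 1 ⊗ₜ s a) x) = M.ps (fun a => 1 ⊗ₜ s a)
        (x.map (Algebra.TensorProduct.includeRight : L →ₐ[k] K ⊗[k] L)) := by
  let τ := Algebra.TensorProduct.map (Algebra.TensorProduct.includeRight : L →ₐ[k] K ⊗[k] L)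
    (AlgHom.id k A)
  refine ⟨τ, Module.Flat.rTensor_preserves_injective_linearMap (M := A)
    (Algebra.TensorProduct.includeRight : L →ₐ[k] K ⊗[k] L).toLinearMap
    (Algebra.TensorProduct.includeRight_injective (algebraMap k K).injective),
    fun s => M.ps_nat _ τ.toRingHom.toAddMonoidHom fun c a => ?_⟩
  simp only [smul_tmul', smul_eq_mul, mul_one]
  rfl

theorem ps_lf (w : A →ₐ[k] X) (s : A → A) (x : Matrix m m L) :
    lf w (M.ps (fun a => (1 : L) ⊗ₜ[k] s a) x) = M.ps (fun a => w (s a)) x :=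
  M.ps_nat (AlgHom.id k L) (lf w : L ⊗[k] A →ₐ[L] X).toRingHom.toAddMonoidHom
    (fun c a => (map_smul (lf w) _ _).trans (by rw [lf_tmul, one_smul]; rfl)) x

variable [IsGalois k K] (e : Pts k G K = G)
include e

theorem ps_mul' (ι : K →ₐ[k] L) (w : A →ₐ[k] X) {x y : Matrix m m L} (hx : x ∈ Z k G L)
    (hy : y ∈ Z k G L) : M.ps w (x * y) = M.ps w x * M.ps w y := by
  obtain ⟨γ, h⟩ := M.exists_gam ι w
  have h1 : ∀ g : G, M.ps w (g.1.1.map ι) = γ (P011LB.th φ g) := fun g =>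
    (h id _).symm.trans (congrArg γ (M.ps_j g))
  have p0 := M.pv_ps (pv_id (k := k) (m := m) (L := L)) w
  have q1 := fun y : Matrix m m L => pv_mmul (pv_id (k := k) (m := m) (L := L)) (pv_const y)
  have q2 := fun y : Matrix m m L => pv_mmul (pv_const y) (pv_id (k := k) (m := m) (L := L))
  have p1 := fun y => pv_sub (M.pv_ps (q1 y) w) (pv_mul p0 (pv_const (M.ps w y)))
  have p2 := fun x => pv_sub (M.pv_ps (q2 x) w) (pv_mul (pv_const (M.ps w x)) p0)
  refine sub_eq_zero.1 (ext₂ e ι (F := fun x y => M.ps w (x * y) - M.ps w x * M.ps w y) p1 p2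
    (fun g hg g' hg' => ?_) x hx y hy)
  rw [← Matrix.map_mul, sub_eq_zero, h1 ⟨g, hg⟩, h1 ⟨g', hg'⟩, ← γ.map_mul,
    ← (P011LB.th φ).map_mul]
  exact h1 ⟨g * g', G.mul_mem hg hg'⟩

theorem ps_star' (ι : K →ₐ[k] L) (w : A →ₐ[k] X) {x : Matrix m m L} (hx : x ∈ Z k G L) :
    M.ps w x * M.ps (fun a => w (star a)) x = 1 ∧ M.ps (fun a => w (star a)) x * M.ps w x = 1 := by
  obtain ⟨γ, h⟩ := M.exists_gam ι w
  have h1 : ∀ g : G, M.ps w (g.1.1.map ι) = γ (P011LB.th φ g) := fun g =>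
    (h id _).symm.trans (congrArg γ (M.ps_j g))
  have h2 : ∀ g : G, M.ps (fun a => w (star a)) (g.1.1.map ι) = γ (P011LB.th φ g⁻¹) := fun g =>
    (h star _).symm.trans (congrArg γ (M.ps_st g))
  exact ⟨sub_eq_zero.1 (ext e ι (pv_sub (pv_mul (M.pv_ps pv_id w) (M.pv_ps pv_id _)) (pv_const 1))
      (fun g hg => by
        rw [h1 ⟨g, hg⟩, h2 ⟨g, hg⟩, ← map_mul, ← map_mul, mul_inv_cancel, map_one, map_one,
          sub_self]) x hx),
    sub_eq_zero.1 (ext e ι (pv_sub (pv_mul (M.pv_ps pv_id _) (M.pv_ps pv_id w)) (pv_const 1))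
      (fun g hg => by
        rw [h1 ⟨g, hg⟩, h2 ⟨g, hg⟩, ← map_mul, ← map_mul, inv_mul_cancel, map_one, map_one,
          sub_self]) x hx)⟩

theorem ps_mul (w : A →ₐ[k] X) {x y : Matrix m m L} (hx : x ∈ Z k G L) (hy : y ∈ Z k G L) :
    M.ps w (x * y) = M.ps w x * M.ps w y := by
  obtain ⟨τ, h1, h2⟩ := M.tau L
  refine (M.ps_lf w id _).symm.trans (Eq.trans ?_ (congrArg₂ _ (M.ps_lf w id _) (M.ps_lf w id _)))
  rw [← map_mul]
  refine congrArg _ (h1 ?_)
  rw [map_mul, h2, h2, h2, Matrix.map_mul]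
  exact M.ps_mul' (L := K ⊗[k] L) e Algebra.TensorProduct.includeLeft
    (Algebra.TensorProduct.includeRight : A →ₐ[k] (K ⊗[k] L) ⊗[k] A) (Z_map _ hx) (Z_map _ hy)

theorem ps_star (w : A →ₐ[k] X) {x : Matrix m m L} (hx : x ∈ Z k G L) :
    M.ps w x * M.ps (fun a => w (star a)) x = 1 ∧ M.ps (fun a => w (star a)) x * M.ps w x = 1 := by
  obtain ⟨τ, h1, h2⟩ := M.tau L
  have h3 := M.ps_star' (L := K ⊗[k] L) e Algebra.TensorProduct.includeLeft
    (Algebra.TensorProduct.includeRight : A →ₐ[k] (K ⊗[k] L) ⊗[k] A)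
    (Z_map (Algebra.TensorProduct.includeRight : L →ₐ[k] K ⊗[k] L) hx)
  rw [← M.ps_lf w star, show M.ps w x = _ from (M.ps_lf w id _).symm, ← map_mul, ← map_mul,
    ← map_one (lf w : L ⊗[k] A →ₐ[L] X)]
  refine ⟨congrArg _ (h1 ?_), congrArg _ (h1 ?_)⟩ <;> rw [map_mul, h2, h2, map_one]
  exacts [h3.1, h3.2]

theorem ps_one (w : A →ₐ[k] X) : M.ps w (1 : Matrix m m L) = 1 := by
  have h1 := M.ps_mul e w (Z_one (L := L)) Z_one
  have h2 := (M.ps_star e w (Z_one (L := L))).1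
  rw [mul_one] at h1
  rw [← h2, h1, mul_assoc, h2, mul_one, ← h1, ← mul_one (M.ps w 1), ← h2, ← mul_assoc, ← h1]

theorem ps_det (hn : 3 ≤ n) (w : A →ₐ[k] Mn n L) {x : Matrix m m L} (hx : x ∈ Z k G L) :
    (M.ps w x).det = 1 := by
  let r : L →ₐ[k] K ⊗[k] L := Algebra.TensorProduct.includeRight
  obtain ⟨γ, h⟩ := M.exists_gam (L := K ⊗[k] L) Algebra.TensorProduct.includeLeft
    (r.mapMatrix.comp w)
  refine Algebra.TensorProduct.includeRight_injective (algebraMap k K).injective ?_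
  rw [AlgHom.map_det, map_one]
  refine (congrArg det (M.ps_nat r r.mapMatrix.toRingHom.toAddMonoidHom
    (w' := r.mapMatrix.comp w) (fun c a => Matrix.ext fun _ _ => map_mul r _ _) x)).trans ?_
  refine sub_eq_zero.1 (ext e Algebra.TensorProduct.includeLeft
    (pv_sub (pv_det (M.pv_ps pv_id _)) (pv_const 1)) (fun g hg => sub_eq_zero.2 ?_) _ (Z_map r hx))
  have := perf hn (detMonoidHom.comp (γ.toMonoidHom.comp ((P011LB.th φ).comp φ.symm.toMonoidHom)))
    (φ ⟨g, hg⟩)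
  refine Eq.trans (congrArg det ((h id _).symm.trans (congrArg γ (M.ps_j ⟨g, hg⟩)))) ?_
  simpa using this

omit e in
/-- the representation over an extension -/
def rp (ι : K →ₐ[k] L) : A →ₐ[k] Mn n L := ι.mapMatrix.comp ((AlgHom.fst k _ _).comp M.j)

theorem ps_inj (h : Pol φ.symm) (ι : K →ₐ[k] L) {x : Matrix m m L} (hx : x ∈ Z k G L)
    (h1 : M.ps (M.rp ι) x = 1) : x = 1 := by
  have h2 : ∀ a b, ∃ q : MvPolynomial (Fin n × Fin n) K, ∀ x ∈ Z k G L,
      x a b = q.eval₂ (ι : K →+* L) fun e => M.ps (M.rp ι) x e.1 e.2 := fun a b =>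
    (h a b).imp fun q hq x hx => sub_eq_zero.1 (ext e ι (pv_sub (pv_entry pv_id a b)
      (pv_eval (ι : K →+* L) (u := fun (e : Fin n × Fin n) x => M.ps (M.rp ι) x e.1 e.2)
        (fun e => pv_entry (M.pv_ps pv_id _) _ _) q)) (fun g hg => sub_eq_zero.2 (by
      have h3 := hq (φ ⟨g, hg⟩)
      have h4 := M.ps_nat ι (ι.mapMatrix.comp (AlgHom.fst k _ _)).toRingHom.toAddMonoidHom
        (w := M.j) (w' := M.rp ι) (fun c a => Matrix.ext fun _ _ => map_mul ι _ _) g.1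
      rw [MulEquiv.symm_apply_apply] at h3
      rw [← h4, map_apply, show g.1 a b = _ from h3, show M.ps M.j g.1 = _ from M.ps_j ⟨g, hg⟩]
      exact MvPolynomial.eval₂_comp_left (ι : K →+* L) (RingHom.id K) _ q)) x hx)
  ext a b
  obtain ⟨q, hq⟩ := h2 a b
  rw [hq x hx, hq 1 Z_one, h1, M.ps_one e]

end Md

end Vale.Agent.P011LB
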