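import Vale.Agent.P011LB.Ani
import Vale.Agent.P011LA.A1
import Vale.Agent.P011NC.Main
import Mathlib.Topology.Algebra.MvPolynomial

/-!
P011 (helper26): the conjecture for the anisotropic outer forms of type `A`.
-/

set_option linter.all false

open Matrix TensorProduct

namespace Vale.Agent.P011LB

open Vale.Agent.P011L Vale.Agent.P011LT Vale.Agent.P011.H925

variable {k K m A : Type} [Field k] [Field K] [Algebra k K] [Fintype m] [DecidableEq m]
  {G : Subgroup (GL m K)} {n : ℕ} {φ : G ≃* SA K n} [Ring A] [StarRing A] [Algebra k A]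
  (M : Md k φ A) [IsGalois k K] (e : Pts k G K = G) (hn : 3 ≤ n) {L : Type} [Field L]
  [Algebra k L]

namespace Md

include φ e hn in
theorem zp (g : Pts k G L) : g.1.1 ∈ Z k G L := Z_pts e (fun g a => by
  simpa using perf hn (detMonoidHom.comp ((Units.coeHom _).comp
    (G.subtype.comp φ.symm.toMonoidHom))) (φ ⟨g, a⟩)) g.2

/-- the homomorphism on points -/
noncomputable def hom {X : Type} [Ring X] [Algebra k X] [Algebra L X] [IsScalarTower k L X]
    (w : A →ₐ[k] X) : Pts k G L →* X where
  toFun g := M.ps w g.1.1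
  map_one' := M.ps_one e w
  map_mul' g h := M.ps_mul e w (zp (φ := φ) e hn g) (zp (φ := φ) e hn h)

variable (L) in
/-- the homomorphism on local points -/
noncomputable def loc : Pts k G L →* Full.GP k A L n :=
  (M.hom e hn (Algebra.TensorProduct.includeRight : A →ₐ[k] L ⊗[k] A)).toHomUnits.codRestrict
    (Subgroup.closure {x : (L ⊗[k] A)ˣ | Full.SU n x.1}) fun g => Subgroup.subset_closure
    ⟨fun σ h => (congrArg _ (M.ps_nat (AlgHom.id k L) σ
        (w' := fun a => Algebra.TensorProduct.includeRight (star a)) (fun c a => by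
          simpa [smul_tmul'] using h c a) _)).trans (M.ps_star e _ (zp (φ := φ) e hn g)).1,
      fun Ω _ _ F => by
        letI : Algebra k Ω := ((algebraMap L Ω).comp (algebraMap k L)).toAlgebra
        haveI : IsScalarTower k L Ω := .of_algebraMap_eq' rfl
        exact (congrArg det (M.ps_nat (IsScalarTower.toAlgHom k L Ω) F.toRingHom.toAddMonoidHom
          (w' := (F.restrictScalars k).comp Algebra.TensorProduct.includeRight)
          (fun c a => (map_smul F c _).trans (algebraMap_smul Ω c _).symm) _)).trans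
          (M.ps_det e hn _ (Z_map _ (zp (φ := φ) e hn g)))⟩

theorem loc_cont [TopologicalSpace L] [IsTopologicalRing L] : Continuous (M.loc e hn L) := by
  letI := moduleTopology L (L ⊗[k] A)
  haveI := IsModuleTopology.toContinuousAdd L (L ⊗[k] A)
  refine continuous_induced_rng.2 (continuous_finsetSum M.s fun i _ =>
    Continuous.fun_smul ?_ continuous_const)
  simp only [ev, MvPolynomial.aeval_def, ← MvPolynomial.eval_map]
  exact (MvPolynomial.continuous_eval _).comp (continuous_pi fun e =>
    (Units.continuous_val.comp continuous_subtype_val).matrix_elem _ _)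

theorem loc_map (g : Pts k G k) :
    Full.Img (M.ps (AlgHom.id k A) g.1.1) (M.loc e hn L (mapP (Algebra.ofId k L) g)) :=
  (M.ps_nat (Algebra.ofId k L) (Algebra.TensorProduct.includeRight :
    A →ₐ[k] L ⊗[k] A).toRingHom.toAddMonoidHom (w := AlgHom.id k A)
    (w' := Algebra.TensorProduct.includeRight) (fun c a => (map_smul
      (Algebra.TensorProduct.includeRight : A →ₐ[k] L ⊗[k] A) c a).trans
      (algebraMap_smul L c _).symm) g.1.1).symm

variable [NeZero n] {C : Type} [Field C] [Algebra k C] [StarRing C] [Algebra C A]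
  [IsScalarTower k C A] [StarModule C A] [Algebra.IsCentral C A]

include e hn in
theorem eta [Algebra C K] (h : ∀ c, algebraMap C K c = M.kap C c) :
    ∃ η : Pts k G k →* Full.GK (M.sp h), Function.Bijective η ∧
      ∀ g, (η g).1.1 = M.ps (AlgHom.id k A) g.1.1 := by
  refine ⟨((M.hom e hn (AlgHom.id k A)).codRestrict (unitary A) fun g => ?_).codRestrict _ fun g =>
    (congrArg (·.1.det) (M.j_up e g)).trans (mem_SA.1 (φ _).2),
    ⟨fun a b c => M.psk_inj e (congrArg (·.1.1) c), fun u => (M.surj e u.1.2.2 u.2).imp fun g a =>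
      Subtype.ext (Subtype.ext a)⟩, fun _ => rfl⟩
  have := M.ps_star e (AlgHom.id k A) (zp (φ := φ) e hn g)
  rw [show M.ps _ g.1.1 = _ from (M.ps_nat (AlgHom.id k k) starAddEquiv.toAddMonoidHom
    (w := AlgHom.id k A) (w' := fun a => AlgHom.id k A (star a)) M.stsm g.1.1).symm] at this
  exact this.symm

include M e hn in
theorem ani' [Infinite k] (hp : Pol φ.symm) (w : Full.AG k C A) :
    Ani (Pts k G w.abv.Completion) := by
  obtain ⟨r, hr⟩ := w.div
  letI : Algebra C w.abv.Completion := (r : C →+* Full.Kv w.abv).toAlgebra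
  haveI : IsScalarTower k C w.abv.Completion := .of_algebraMap_eq fun c => (r.commutes c).symm
  haveI : Infinite w.abv.Completion := .of_injective _ (algebraMap k _).injective
  exact M.ani e hn hp hr

include M e hn in
theorem xi [Infinite k] (hp : Pol φ.symm) :
    ∃ Ξ : (∀ v : AG k G, Pts k G v.abv.Completion) →* Full.HA k C A n, Continuous Ξ ∧
      ∀ g : Pts k G k, Full.Diag (M.ps (AlgHom.id k A) g.1.1)
        (Ξ fun v => mapP (Algebra.ofId k v.abv.Completion) g) :=
  ⟨MonoidHom.pi fun w => (M.loc e hn w.abv.Completion).comp (Pi.evalMonoidHom _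
    (⟨w.abv, w.nonarch, w.normalized, M.ani' e hn hp w⟩ : AG k G)),
    continuous_pi fun w => (M.loc_cont e hn).comp (continuous_apply _),
    fun g w => M.loc_map e hn g⟩

end Md

theorem ta (a1 : A1) : TA := by
  intro k K _ _ _ _ m G an n φ hn hk h ho
  haveI : NeZero n := ⟨by omega⟩
  haveI : Infinite k := hk.elim (fun _ => .of_injective _ Nat.cast_injective)
    fun ⟨F, _, _, _, _⟩ => .of_injective _
      ((algebraMap (RatFunc F) k).injective.comp (RatFunc.algebraMap_injective F))
  obtain ⟨A, _, _, _, ⟨M⟩⟩ := exists_md a1 hn h ho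
  haveI := M.simple
  obtain ⟨C, _, _, _, _, _, _, hC⟩ := exists_ctr k A
  letI := (M.kap C).toRingHom.toAlgebra
  obtain ⟨η, ⟨e1, e2⟩, e3⟩ := M.eta h.1 hn (C := C) fun _ => rfl
  obtain ⟨Ξ, x1, x2⟩ := M.xi h.1 hn (C := C) h.2.2
  obtain ⟨δ, d1, -, d2⟩ := P011NC.clauseA_all (k := k)
    ⟨hk, M.fixed, M.star_ne C, hC, M.simple, hn, M.rank C, M.aniso h.1 h.2.2 an⟩
    (M.sp (C := C) fun _ => rfl)
  refine ⟨MonoidHom.pi fun v => mapP (Algebra.ofId k v.abv.Completion), fun g v => rfl,
    fun N h1 h2 => ?_⟩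
  obtain ⟨W, w1, w2, w3⟩ := d2 (N.map η) (h1.map η e2) fun a => h2 fun g b =>
    Subgroup.mem_center_iff.2 fun x => e1 (by
      rw [η.map_mul, η.map_mul]
      exact Subgroup.mem_center_iff.1 (a ⟨g, b, rfl⟩) _)
  refine ⟨W.comap Ξ, w1.preimage x1, w2.comap _, ?_⟩
  rw [← Subgroup.comap_map_eq_self_of_injective e1 N, w3, Subgroup.comap_comap,
    Subgroup.comap_comap]
  refine congrArg (Subgroup.comap · W) (MonoidHom.ext fun g => ?_)
  funext w
  exact Subtype.ext (Units.ext ((e3 g ▸ d1 (η g) w :).trans (x2 g w).symm))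

theorem ta' : TA := ta P011LA.a1

end Vale.Agent.P011LB
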